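import Vale.Agent.P221.T.H520.End
import Mathlib.RingTheory.Filtration

/-!
# P221 (helper543): homomorphisms of finitely generated `ℤ_p`-modules

* `map_smul_padic` : additive maps to finitely generated `ℤ_p`-modules are linear;
* `FinZp.of_exact` : kernels are finitely generated.
-/

set_option linter.unusedSectionVars false

namespace Vale.Agent.P221.H543

open Vale.Agent.P221.T

variable {p : ℕ} [hp : Fact p.Prime]

/-- additive maps to finitely generated modules are linear -/
theorem map_smul_padic {G G' : Type} [AddCommGroup G] [AddCommGroup G'] [Module ℤ_[p] G]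
    [Module ℤ_[p] G'] [Module.Finite ℤ_[p] G'] (f : G →+ G') (a : ℤ_[p]) (x : G) :
    f (a • x) = a • f x := by
  have h0 : ∀ (N : ℕ), f (a • x) - a • f x ∈ (Ideal.span {(p : ℤ_[p])}) ^ N •
      (⊤ : Submodule ℤ_[p] G') := by
    intro N
    have h1 : a - a.appr N ∈ Ideal.span {(p : ℤ_[p]) ^ N} := PadicInt.appr_spec N a
    obtain ⟨d, hd⟩ := Ideal.mem_span_singleton.1 h1
    have h2 : a = (a.appr N : ℤ_[p]) + (p : ℤ_[p]) ^ N * d := by rw [← hd]; ring
    have h3 : ∀ {H : Type} [AddCommGroup H] [Module ℤ_[p] H] (y : H),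
        a • y = a.appr N • y + p ^ N • (d • y) := by
      intro H _ _ y
      conv_lhs => rw [h2, add_smul, mul_smul]
      congr 1
      · exact Nat.cast_smul_eq_nsmul _ _ _
      · rw [← Nat.cast_pow]
        exact Nat.cast_smul_eq_nsmul _ _ _
    have h4 : f (a • x) - a • f x = (p : ℤ_[p]) ^ N • (f (d • x) - d • f x) := by
      rw [h3 x, h3 (f x), map_add, map_nsmul, map_nsmul, ← Nat.cast_pow, Nat.cast_smul_eq_nsmul,
        smul_sub]
      abel
    rw [h4, Ideal.span_singleton_pow]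
    exact Submodule.smul_mem_smul (Ideal.mem_span_singleton_self _) trivial
  have hne : Ideal.span {(p : ℤ_[p])} ≠ ⊤ := by
    rw [← PadicInt.maximalIdeal_eq_span_p]
    exact (IsLocalRing.maximalIdeal.isMaximal ℤ_[p]).ne_top
  have h5 : f (a • x) - a • f x ∈ (⨅ i : ℕ, (Ideal.span {(p : ℤ_[p])}) ^ i •
      (⊤ : Submodule ℤ_[p] G')) := (Submodule.mem_iInf _).2 h0
  rw [Ideal.iInf_pow_smul_eq_bot_of_isLocalRing _ hne] at h5
  exact sub_eq_zero.1 ((Submodule.mem_bot _).1 h5)

/-- **kernels** -/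
theorem FinZp.of_exact {G₁ G G₂ : Type} [AddCommGroup G₁] [AddCommGroup G] [AddCommGroup G₂]
    (i : G₁ →+ G) (f : G →+ G₂) (hi : Function.Injective i) (hf : ∀ a, f a = 0 ↔ ∃ b, i b = a)
    (h : FinZp p G) (h₂ : FinZp p G₂) : FinZp p G₁ := by
  obtain ⟨hM, hF⟩ := h
  obtain ⟨hM₂, hF₂⟩ := h₂
  let L : G →ₗ[ℤ_[p]] G₂ := { f with map_smul' := fun a x => map_smul_padic f a x }
  have h1 : ∀ x : G₁, i x ∈ LinearMap.ker L := fun x => (hf _).2 ⟨x, rfl⟩
  let j : G₁ →+ LinearMap.ker L :=
    { toFun := fun x => ⟨i x, h1 x⟩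
      map_zero' := by
        ext
        exact map_zero i
      map_add' := fun x y => by
        ext
        exact map_add i x y }
  let e : G₁ ≃+ LinearMap.ker L := AddEquiv.ofBijective j
    ⟨fun x y hxy => hi (congrArg Subtype.val hxy), fun y => by
      obtain ⟨b, hb⟩ := (hf y.1).1 y.2
      exact ⟨b, Subtype.ext hb⟩⟩
  exact FinZp.of_equiv e ⟨inferInstance, inferInstance⟩

end Vale.Agent.P221.H543
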