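import Vale.Agent.P221.H543.KB
import Vale.Agent.P221.T.H520.T2

/-!
# P221 (helper543): Koszul exactness and regularity for finite sums of suspensions

* `mapE φ` : the map of `⨁ A_k` induced by a map of systems of degree `e`;
* `Dcp` : a decomposition of a system as a finite sum of suspensions of a system;
* `Dcp.ka`, `Dcp.rgm`;
* `dcp_coprod` : the decomposition of `∐ B⟦e i⟧`.
-/

open CategoryTheory Limits MonoidalCategory Pretriangulated

set_option linter.unusedSectionVars false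

universe u

namespace Vale.Agent.P221.H543

open Vale.Agent.P251.T Vale.Agent.P251.M Vale.Agent.P251.S
open Vale.Agent.P221.T Vale.Agent.P221.T.H746 Vale.Agent.P221.H460 Vale.Agent.P221.H377
  Vale.Agent.P221.H626

section alg

variable {p : ℕ} [hp : Fact p.Prime] {n : ℕ} {S : Src p n} {Y Y' : Sys S}

/-- the map induced by a map of systems of degree `e` -/
noncomputable def mapE {e : ℤ} (φ : SysMap Y Y' e) : AA Y →+ AA Y' :=
  DirectSum.toAddMonoid fun k => (ofA Y' (k + e)).comp (φ.f rfl)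

theorem mapE_of {e : ℤ} (φ : SysMap Y Y' e) {k k' : ℤ} (h : k + e = k') (a : Y.A k) :
    mapE φ (ofA Y k a) = ofA Y' k' (φ.f h a) := by
  subst h
  exact DirectSum.toAddMonoid_of _ _ _

theorem mapE_mem {e : ℤ} (φ : SysMap Y Y' e) (k : ℤ) (α : AA Y) (h : α ∈ grA Y k) :
    mapE φ α ∈ grA Y' (k + e) := by
  obtain ⟨a, rfl⟩ := exists_of_mem_grA h
  rw [mapE_of φ rfl]
  exact of_mem_grA _ _ _

theorem mapE_op {e : ℤ} (φ : SysMap Y Y' e) {m : ℤ} (γ : S.E m) (α : AA Y) :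
    mapE φ (opA Y γ α) = opA Y' γ (mapE φ α) := by
  refine ind Y (Q := fun α => mapE φ (opA Y γ α) = opA Y' γ (mapE φ α)) ?_ ?_ ?_ α
  · simp only [map_zero]
  · intro k a
    rw [opA_of Y (rfl : k + m = k + m), mapE_of φ (rfl : k + m + e = _),
      mapE_of φ (rfl : k + e = _), opA_of Y' (show k + e + m = k + m + e by ring)]
    congr 1
    exact φ.act rfl rfl _ rfl a γ
  · intro α β h h'
    simp only [map_add, h, h']

theorem mapE_D0 {e : ℤ} (φ : SysMap Y Y' e) : ∀ α ∈ D0 Y, mapE φ α ∈ D0 Y' := by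
  classical
  intro α hα
  rw [← DirectSum.sum_support_of α, map_sum]
  refine AddSubgroup.sum_mem _ fun k _ => ?_
  have h1 := mapE_of φ (rfl : k + e = k + e) (α k)
  rw [show DirectSum.of Y.A k (α k) = ofA Y k (α k) from rfl, h1, of_mem_D0, φ.ev, hα k, map_zero]

variable {ld : Lead p n} {O : OpAlg ld S} {X : OpX O}

theorem mapE_xx {e : ℤ} (φ : SysMap Y Y' e) (m : ℕ) (α : AA Y) :
    mapE φ (xx X Y m α) = xx X Y' m (mapE φ α) := mapE_op φ _ α

theorem mapE_xo {e : ℤ} (φ : SysMap Y Y' e) (m : ℕ) (α : AA Y) :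
    mapE φ (xo X Y m α) = xo X Y' m (mapE φ α) := mapE_op φ _ α

theorem mapE_W {e : ℤ} (φ : SysMap Y Y' e) {m : ℕ} : ∀ {α : AA Y},
    α ∈ W (D0 Y) (xx X Y) (fun _ => 1) m → mapE φ α ∈ W (D0 Y') (xx X Y') (fun _ => 1) m := by
  induction m with
  | zero => exact fun h => mapE_D0 φ _ h
  | succ m ih =>
    intro α hα
    obtain ⟨w, hw, u, rfl⟩ := SES.mem_W_one.1 hα
    rw [map_add, mapE_xx]
    exact SES.mem_W_one.2 ⟨_, ih hw, _, rfl⟩

/-- finite sums of suspensions -/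
structure Dcp (Y Y' : Sys S) (r : ℕ) (e : Fin r → ℤ) where
  /-- the inclusions -/
  J : ∀ i, SysMap Y Y' (e i)
  /-- the projections -/
  π : ∀ i, SysMap Y' Y (-e i)
  id : ∀ α : AA Y', ∑ i, mapE (J i) (mapE (π i) α) = α

theorem kmap_fsum {F F' : Type*} [AddCommGroup F] [AddCommGroup F'] {ι : Type*} (s : Finset ι)
    (f : ι → F →+ F') {r : ℕ} (z : KC F r) :
    kmap (∑ i ∈ s, f i) r z = ∑ i ∈ s, kmap (f i) r z := by
  induction r with
  | zero => exact AddMonoidHom.finsetSum_apply f s z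
  | succ r ih =>
    refine pr_ext ?_ ?_
    · rw [fs_kmap, ih, map_sum]
      rfl
    · rw [sn_kmap, ih, map_sum]
      rfl

theorem kmap_id' {F : Type*} [AddCommGroup F] {f : F →+ F} (hf : ∀ z, f z = z) {r : ℕ}
    (z : KC F r) : kmap f r z = z := by
  induction r with
  | zero => exact hf z
  | succ r ih => exact pr_ext (ih _) (ih _)

variable {r : ℕ} {e : Fin r → ℤ} (Δ : Dcp Y Y' r e)

include Δ

theorem Dcp.kmap_id {q : ℕ} (z : KC (AA Y') q) :
    ∑ i, kmap (mapE (Δ.J i)) q (kmap (mapE (Δ.π i)) q z) = z := by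
  have h1 : ∑ i, kmap (mapE (Δ.J i)) q (kmap (mapE (Δ.π i)) q z) =
      kmap (∑ i, (mapE (Δ.J i)).comp (mapE (Δ.π i))) q z := by
    rw [kmap_fsum]
    exact Finset.sum_congr rfl fun i _ => kmap_kmap _ _ _
  rw [h1]
  refine kmap_id' (fun α => ?_) z
  rw [AddMonoidHom.finsetSum_apply]
  exact Δ.id α

/-- **Koszul exactness** -/
theorem Dcp.ka {q : ℕ} {s t : ℤ} (h : ∀ i, KA X Y q s (t - e i)) : KA X Y' q s t := by
  intro z hz hd
  have h1 : ∀ i, ∃ y ∈ KG (grA Y) (sV p) q (s + 1) (t - e i), kd (xo X Y) q y =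
      kmap (mapE (Δ.π i)) q z := by
    intro i
    refine h i _ ?_ ?_
    · exact kmap_mem (e := -e i) (fun k z hz => mapE_mem (Δ.π i) k z hz) hz
    · rw [← kmap_kd (x := xo X Y') (fun a z => mapE_xo (Δ.π i) a z), hd, map_zero]
  choose y hy hy' using h1
  refine ⟨∑ i, kmap (mapE (Δ.J i)) q (y i), AddSubgroup.sum_mem _ fun i _ => ?_, ?_⟩
  · have h2 := kmap_mem (e := e i) (fun k z hz => mapE_mem (Δ.J i) k z hz) (hy i)
    rwa [sub_add_cancel] at h2
  · rw [map_sum]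
    conv_rhs => rw [← Δ.kmap_id z]
    refine Finset.sum_congr rfl fun i _ => ?_
    rw [← hy' i, kmap_kd (x' := xo X Y') (fun a z => mapE_xo (Δ.J i) a z)]

/-- **regularity** -/
theorem Dcp.rgm {q : ℕ} (h : Rgm X Y q) : Rgm X Y' q := by
  intro m hm α hα
  rw [← Δ.id α]
  refine AddSubgroup.sum_mem _ fun i _ => mapE_W (Δ.J i) (h m hm _ ?_)
  rw [← mapE_xx]
  exact mapE_W (Δ.π i) hα

end alg

section top

variable {𝒯 : Type u} [Category.{0} 𝒯] [Preadditive 𝒯] [HasZeroObject 𝒯]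
    [HasShift 𝒯 ℤ] [∀ n : ℤ, (shiftFunctor 𝒯 n).Additive] [Pretriangulated 𝒯] [IsTriangulated 𝒯]
    [MonoidalCategory 𝒯] [SymmetricCategory 𝒯] [TensorTriangulated 𝒯] [MonoidalClosed 𝒯]
    [HasCoproducts.{0} 𝒯] [HasProducts.{0} 𝒯] [StableCat 𝒯]

open Vale.Agent.P251.M (proj ι_proj_self ι_proj_of_ne)

theorem sum_proj_ι {r : ℕ} (X : Fin r → 𝒯) : ∑ i, proj X i ≫ Sigma.ι X i = 𝟙 (∐ X) := by
  refine Sigma.hom_ext _ _ fun j => ?_
  rw [Preadditive.comp_sum, Finset.sum_eq_single j]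
  · rw [← Category.assoc, ι_proj_self, Category.id_comp, Category.comp_id]
  · intro i _ hij
    rw [← Category.assoc, ι_proj_of_ne _ hij.symm, zero_comp]
  · exact fun h => absurd (Finset.mem_univ _) h

variable {p n : ℕ} [Fact p.Prime] {P : 𝒯} (Sc : SrcT p n P) (B : 𝒯) {r : ℕ} (e : Fin r → ℤ)

/-- composition with an endomorphism -/
def postA {G : 𝒯} (u : G ⟶ G) (k : ℤ) : (Sc.sys G).A k →+ (Sc.sys G).A k :=
  Preadditive.rightComp (P⟦k⟧) u

/-- **the decomposition of a finite sum of suspensions** -/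
theorem exists_dcp : Nonempty (Dcp (Sc.sys B) (Sc.sys (∐ fun i => B⟦e i⟧)) r e) := by
  choose π hπ using fun i => gc_surj (A := ∐ fun i => B⟦e i⟧) (Q := B)
    (show e i + (-e i) = 0 by ring)
    ((shiftFunctorZero 𝒯 ℤ).hom.app _ ≫ proj (fun i => B⟦e i⟧) i)
  refine ⟨⟨fun i => Sc.map (Sigma.ι (fun i => B⟦e i⟧) i), fun i => Sc.map (π i), fun α => ?_⟩⟩
  refine ind _ (Q := fun α => ∑ i, mapE (Sc.map (Sigma.ι (fun i => B⟦e i⟧) i))
    (mapE (Sc.map (π i)) α) = α) ?_ ?_ ?_ α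
  · simp only [map_zero, Finset.sum_const_zero]
  · intro k a
    have h1 : ∀ i, mapE (Sc.map (Sigma.ι (fun i => B⟦e i⟧) i)) (mapE (Sc.map (π i))
        (ofA (Sc.sys (∐ fun i => B⟦e i⟧)) k a)) = ofA (Sc.sys (∐ fun i => B⟦e i⟧)) k
          (postA Sc (proj (fun i => B⟦e i⟧) i ≫ Sigma.ι (fun i => B⟦e i⟧) i) k a) := by
      intro i
      rw [mapE_of (Sc.map (π i)) (show k + -e i = k - e i by ring),
        mapE_of (Sc.map (Sigma.ι (fun i => B⟦e i⟧) i)) (show k - e i + e i = k by ring)]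
      congr 1
      change P⟦k⟧ ⟶ ∐ fun i => B⟦e i⟧ at a
      change gc (by omega : e i + (k - e i) = k) (gc (by omega : -e i + k = k - e i) a (π i))
        (Sigma.ι (fun i => B⟦e i⟧) i) =
          a ≫ proj (fun i => B⟦e i⟧) i ≫ Sigma.ι (fun i => B⟦e i⟧) i
      rw [← gc_assoc a (π i) (Sigma.ι (fun i => B⟦e i⟧) i) (show e i + -e i = 0 by ring)
        (zero_add k) (by omega) (by omega),
        gc_eq (show e i + -e i = 0 by ring) (π i) (Sigma.ι (fun i => B⟦e i⟧) i), hπ,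
        Category.assoc, gc_zero_shift]
    refine (Finset.sum_congr rfl fun i _ => h1 i).trans ?_
    refine (map_sum (ofA (Sc.sys (∐ fun i => B⟦e i⟧)) k) _ _).symm.trans ?_
    congr 1
    change P⟦k⟧ ⟶ ∐ fun i => B⟦e i⟧ at a
    change ∑ i, a ≫ proj (fun i => B⟦e i⟧) i ≫ Sigma.ι (fun i => B⟦e i⟧) i = a
    rw [← Preadditive.comp_sum, sum_proj_ι, Category.comp_id]
  · intro α β h h'
    simp only [map_add, Finset.sum_add_distrib]
    rw [h, h']

end top

end Vale.Agent.P221.H543
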