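import Vale.Agent.P221.H543.Cov
import Vale.Agent.P221.H543.Sum
import Vale.Agent.P221.H543.FinZp
import Vale.Agent.P221.H626.Sep
import Vale.Agent.P221.H460.Asm

/-!
# P221 (helper543): the syzygy step and the induction on the regularity

* `CX Sc OX c X` : `X` is even, `p`-complete, `c`-connective, its homotopy groups are finitely
  generated over `ℤ_p` and the Koszul complex of `v_0, …, v_n` on `⨁ [P⟦k⟧, X]` is exact in internal
  degrees `≥ c + ∑ |v_a|`;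
* `exists_fam` : a finite sum of even suspensions of `B` which is onto on homotopy;
* `CX.syz` : the fibre is in `CX`, and one more `v_m` is regular;
* `thick_of_cx` : if all objects `X` in `CX` are covered by suspensions of `B`, they are in
  `Thick B`.
-/

open CategoryTheory MonoidalCategory MonObj Limits Pretriangulated

set_option linter.unusedSectionVars false

universe u

noncomputable section

namespace Vale.Agent.P221.H543

open Vale.Agent.P251 Vale.Agent.P251.S Vale.Agent.P251.T Vale.Agent.P251.M Vale.Agent.P251.F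
  Vale.Agent.P251.I EvenSpheres Vale.Agent.P257.H80 Vale.Agent.P257.H762 Vale.Agent.P221.H246
  Vale.Agent.P221.Loc Vale.Agent.P221.E Vale.Agent.P221.E.H817
open Vale.Agent.P221.H395 (PComplete)
open Vale.Agent.P221.T (fm fm_comp shift_fm fm_assoc gc comp_gc gc_map gc_comp gc_surj
  gc_zero_left BPS PiM zr KK GG HK dT SrcT Lead OpAlg SysMap Sys tri_exact
  tri_inj FormD decomp pComplete_coprod pi_shift_zero hat FinZp Env sV FS grR)
open Vale.Agent.P221.H460 (Ev OpX psi HomD exists_psi' Nm HS HS_fg)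
open Vale.Agent.P221.H377 (AA ofA xx D0 W Rg)
open Vale.Agent.P221.T.H746 (RN)
open Vale.Agent.P221.H626
open Vale.Agent.P221.V (LiftsV)
open MvPolynomial (monomial coeff)

variable {𝒯 : Type u} [Category.{0} 𝒯] [Preadditive 𝒯] [HasZeroObject 𝒯]
    [HasShift 𝒯 ℤ] [∀ n : ℤ, (shiftFunctor 𝒯 n).Additive] [Pretriangulated 𝒯] [IsTriangulated 𝒯]
    [MonoidalCategory 𝒯] [SymmetricCategory 𝒯] [TensorTriangulated 𝒯] [MonoidalClosed 𝒯]
    [HasCoproducts.{0} 𝒯] [HasProducts.{0} 𝒯] [StableCat 𝒯]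

variable {p : ℕ} [hp : Fact p.Prime] {n : ℕ} {R : 𝒯} [MonObj R] [IsCommMonObj R]
  {P W₀ : 𝒯} {β : BPS p R P W₀} {ld : Lead p n} {Sc : SrcT p n P} {O : OpAlg ld Sc.src}
  {OX : OpX O} {B : 𝒯}

section form

variable (φ : FormD β n B)

/-- `π_* B` is free on one generator -/
theorem freeOne_B : letI := β.mdl φ.MB φ.hB
    FreeOne p n (PiM.gr B) (H903.q1 φ) := by
  let := β.mdl φ.MB φ.hB
  exact
  { mem := H903.q1_mem φ
    ex := fun k y hy => by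
      obtain ⟨z, rfl⟩ := hy
      obtain ⟨f, hf, rfl⟩ := H903.exists_B φ z
      exact ⟨f, hf, H903.of_cls_Q φ hf⟩
    inj := fun k f g hf hg h => H903.B_inj φ hf hg h }

include φ in
/-- Koszul exactness and regularity for `B` -/
theorem ka_form (hu : Sc.u = η[R] ≫ β.c) (hT : ∀ (m : ℤ) (g : P⟦m⟧ ⟶ P), O.T m g = β.T g) :
    (∀ s t : ℤ, 0 < t → KA OX (Sc.sys B) (n + 1) s t) ∧ Rgm OX (Sc.sys B) (n + 1) := by
  let := β.mdl φ.MB φ.hB
  obtain ⟨co, -⟩ := β.specA2 ld Sc O hu hT B φ.MB φ.hB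
  exact ⟨fun s t ht => ka_B OX co (freeOne_B φ) ht, rgm_of_free OX co (freeOne_B φ)⟩

include φ in
theorem finZp_form (k : ℤ) : FinZp p ((𝟙_ 𝒯)⟦k⟧ ⟶ B) := by
  have : Module.Finite ℤ_[p] (HS p (n := n) (fun _ : Fin 1 => (0 : ℤ)) k) :=
    Module.Finite.iff_fg.2 (HS_fg k)
  have h0 : ∀ f ∈ HS p (n := n) (fun _ : Fin 1 => (0 : ℤ)) k, HK p k (RN p n (f 0)) := by
    intro f hf
    have h1 := hf 0
    rwa [sub_zero] at h1
  let F : HS p (n := n) (fun _ : Fin 1 => (0 : ℤ)) k →+ ((𝟙_ 𝒯)⟦k⟧ ⟶ B) :=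
    AddMonoidHom.mk' (fun f => β.cls k (RN p n (f.1 0)) ≫ φ.Q) fun f g => by
      rw [← Preadditive.add_comp, ← H903.cls_add β (h0 _ f.2) (h0 _ g.2), ← map_add]
      rfl
  refine finZp_of_surj (H626.uniq_hom φ.hB _) F (fun z => ?_) ⟨inferInstance, this⟩
  obtain ⟨f, hf, rfl⟩ := H903.exists_B φ z
  exact ⟨⟨fun _ => f, fun _ => by rwa [sub_zero]⟩, rfl⟩

end form

/-- finite sums -/
theorem finZp_sum (hB : PComplete p B) (hf : ∀ k : ℤ, FinZp p ((𝟙_ 𝒯)⟦k⟧ ⟶ B)) {r : ℕ}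
    (e : Fin r → ℤ) (k : ℤ) : FinZp p ((𝟙_ 𝒯)⟦k⟧ ⟶ ∐ fun i => B⟦e i⟧) := by
  let F : (∀ i : Fin r, ((𝟙_ 𝒯)⟦k - e i⟧ ⟶ B)) →+ ((𝟙_ 𝒯)⟦k⟧ ⟶ ∐ fun i => B⟦e i⟧) :=
    AddMonoidHom.mk' (fun w => ∑ i, gc (by omega : e i + (k - e i) = k) (w i)
      (Sigma.ι (fun i => B⟦e i⟧) i)) fun w w' => by
      rw [← Finset.sum_add_distrib]
      refine Finset.sum_congr rfl fun i _ => ?_
      rw [← Vale.Agent.P221.T.gc_add_left]
      rfl
  refine finZp_of_surj (H626.uniq_hom (pComplete_coprod fun i => hB.shift (e i)) _) F (fun z => ?_)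
    (finZp_pi fun i => hf _)
  obtain ⟨w, hw, -⟩ := decomp e k z
  exact ⟨w, hw.symm⟩

/-- the objects of the induction -/
structure CX (Sc : SrcT p n P) {O : OpAlg ld Sc.src} (OX : OpX O) (c : ℤ) (X : 𝒯) : Prop where
  ee : EE p X
  conn : ∀ k < c, ∀ x : (𝟙_ 𝒯)⟦k⟧ ⟶ X, x = 0
  fin : ∀ k : ℤ, FinZp p ((𝟙_ 𝒯)⟦k⟧ ⟶ X)
  ka : ∀ s t, c + Wd (sV p) (n + 1) ≤ t → KA OX (Sc.sys X) (n + 1) s t

/-- every homotopy class in degrees `≥ c` extends over `B` -/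
def Cvr (Sc : SrcT p n P) (Q : P ⟶ B) (c : ℤ) (X : 𝒯) : Prop :=
  ∀ k, c ≤ k → ∀ x : (𝟙_ 𝒯)⟦k⟧ ⟶ X, ∃ b : B⟦k⟧ ⟶ X, Sc.u⟦k⟧' ≫ Q⟦k⟧' ≫ b = x

variable {D : MUData 𝒯} {F : SpaceFunctor 𝒯} {eF : F.S.obj CCF ≅ (stdEven 𝒯).L}
  {b₀ : D.R ⟶ R} [IsMonHom b₀]

/-- `p`-completeness of the homotopy groups -/
theorem cpl_of_pc {X : 𝒯} (hX : PComplete p X) (k : ℤ) (z : ℕ → ((𝟙_ 𝒯)⟦k⟧ ⟶ X))
    (hz : ∀ i, z i = p • z (i + 1)) : ∀ i, z i = 0 := by
  obtain ⟨C, i', δ', hC⟩ := distinguished_cocone_triangle ((p : ℤ) • 𝟙 (𝟙_ 𝒯))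
  exact hX.eq_zero_of_compat hC z fun i => by
    rw [natCast_zsmul]
    exact hz i

section step

variable (hu : Sc.u = η[R] ≫ β.c) (hD : MUUniv eF D) (hb : IsBPMon p b₀)

include hu hD hb in
/-- the structure `Reg0` -/
theorem CX.reg0 {c : ℤ} {X : 𝒯} (hX : CX Sc OX c X) {M : Type} [AddCommGroup M]
    [Module (KK p) M] (Z : Ev O (Sc.sys X) M) : Reg0 Z OX :=
  reg0_mk Z (ev_surj β hu hD hb hX.ee) hX.ee.bb (cpl_of_pc hX.ee.pc) hX.fin
    (fun t ht => hX.ka 0 t ht)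

variable (hT : ∀ (m : ℤ) (g : P⟦m⟧ ⟶ P), O.T m g = β.T g) (φ : FormD β n B)

include hu hD hb hT in
/-- **the cover** -/
theorem exists_fam {c : ℤ} {X : 𝒯} (hX : CX Sc OX c X) (hcov : Cvr Sc φ.Q c X) :
    ∃ (r : ℕ) (e : Fin r → ℤ) (b : ∀ i, B⟦e i⟧ ⟶ X),
      (∀ i, (2 : ℤ) ∣ e i ∧ c ≤ e i ∧ e i < c + Wd (sV p) (n + 1)) ∧
      ∀ (k : ℤ) (y : (𝟙_ 𝒯)⟦k⟧ ⟶ X), ∃ z, z ≫ Sigma.desc b = y := by
  classical
  let := β.mdl (ModStr.free R X) (hX.ee.tensB hD hb).pc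
  obtain ⟨Z, -⟩ := exists_Ev β β.specA2 O hu hT hD hb hX.ee
  have hR := hX.reg0 hu hD hb Z
  obtain ⟨r, e, g, hg1, hg2⟩ := exists_family0 hR
  have hc1 : ∀ i, Z.c (e i) (g i) 1 = Z.e (e i) ((Sc.sys X).ev (e i) (g i)) := fun i =>
    (Z.ev (e i) (g i)).symm
  have hne : ∀ i, (Sc.sys X).ev (e i) (g i) ∉ Nm Z OX (n + 1) (e i) := by
    intro i hi
    have h1 := hg2 (e i) (Pi.single i 1) (fun j hj => Pi.single_eq_of_ne (by
      rintro rfl
      exact hj rfl) _) ⟨_, hi, ?_⟩ i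
    · rw [Pi.single_eq_same] at h1
      exact hp.out.one_lt.ne' (Nat.dvd_one.1 h1)
    · rw [Finset.sum_eq_single i]
      · rw [Pi.single_eq_same, one_smul, hc1]
      · intro j _ hj
        rw [Pi.single_eq_of_ne hj, zero_smul]
      · exact fun h => absurd (Finset.mem_univ _) h
  have he : ∀ i, (2 : ℤ) ∣ e i ∧ c ≤ e i ∧ e i < c + Wd (sV p) (n + 1) := by
    intro i
    refine ⟨?_, ?_, ?_⟩
    · by_contra h
      refine hne i ?_
      have h1 : (Sc.sys X).ev (e i) (g i) = 0 := hX.ee.ev.zero h _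
      rw [h1]
      exact AddSubgroup.zero_mem _
    · by_contra h
      refine hne i ?_
      have h1 : (Sc.sys X).ev (e i) (g i) = 0 := hX.conn _ (not_le.1 h) _
      rw [h1]
      exact AddSubgroup.zero_mem _
    · by_contra h
      exact hne i (mem_Nm_of_ka Z (hX.ka 0 _ (not_lt.1 h)) (hR.surj _) _)
  choose b hb' using fun i => hcov (e i) (he i).2.1 ((Sc.sys X).ev (e i) (g i))
  refine ⟨r, e, b, he, ?_⟩
  let g' : ∀ i, (Sc.sys X).A (e i) := fun i => φ.Q⟦e i⟧' ≫ b i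
  have hg' : ∀ i, (Sc.sys X).ev (e i) (g' i) = (Sc.sys X).ev (e i) (g i) := fun i => hb' i
  have hc2 : ∀ i, Z.c (e i) (g' i) 1 = Z.c (e i) (g i) 1 := fun i => by
    rw [hc1, ← hg', Z.ev]
  have hs := exists_psi_eq0 (Z := Z) (X := OX) g' hR (fun k x => by
    obtain ⟨m, hm, y, hy, hxy⟩ := hg1 k x
    refine ⟨m, hm, y, hy, ?_⟩
    rw [hxy]
    congr 1
    exact Finset.sum_congr rfl fun i _ => by rw [hc2])
  exact desc_surj Z φ hu hT b g' (fun _ => rfl) hs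

include hu hD hb hT in
/-- **the syzygy step** -/
theorem CX.syz {c : ℤ} {X : 𝒯} (hX : CX Sc OX c X) (hcov : Cvr Sc φ.Q c X) {r : ℕ}
    (hr : r ≤ n) (hreg : Rgm OX (Sc.sys X) r) :
    ∃ X₁ : 𝒯, CX Sc OX c X₁ ∧ Rgm OX (Sc.sys X₁) (r + 1) ∧ (T.Thick B X₁ → T.Thick B X) := by
  obtain ⟨m, e, b, he, hs⟩ := exists_fam hu hD hb hT φ hX hcov
  obtain ⟨X₁, i, δ, hTr⟩ := distinguished_cocone_triangle₁ (Sigma.desc b)
  have hBE := ee_B φ
  have hG : EE p (∐ fun i => B⟦e i⟧) := ee_coprod hBE (fun k hk z => φ.pi_neg k hk z) e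
    (fun i => (he i).1) fun i => (he i).2.1
  have hGc : ∀ k < c, ∀ x : (𝟙_ 𝒯)⟦k⟧ ⟶ ∐ fun i => B⟦e i⟧, x = 0 := fun k hk x =>
    pi_shift_zero (fun k hk z => φ.pi_neg k hk z) e (fun i => lt_of_lt_of_le hk (he i).2.1) x
  have hX₁ : EE p X₁ := EE.fibre hTr hG hX.ee hs
  let := β.mdl (ModStr.free R (∐ fun i => B⟦e i⟧)) (hG.tensB hD hb).pc
  obtain ⟨Z, -⟩ := exists_Ev β β.specA2 O hu hT hD hb hG
  have hE := sses_of_tri β hTr hu hD hb hX₁ hX.ee hs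
  obtain ⟨Δ⟩ := exists_dcp Sc B e
  obtain ⟨hBk, hBr⟩ := ka_form (OX := OX) φ hu hT
  refine ⟨X₁, ⟨hX₁, conn_fibre hTr hs hGc, fun k => ?_, fun s t ht => ?_⟩, ?_, fun h => ?_⟩
  · refine FinZp.of_exact (Preadditive.rightComp ((𝟙_ 𝒯)⟦k⟧) i)
      (Preadditive.rightComp ((𝟙_ 𝒯)⟦k⟧) (Sigma.desc b)) ?_ (fun a => ?_)
      (finZp_sum hBE.pc (finZp_form φ) e k) (hX.fin k)
    · exact (injective_iff_map_eq_zero _).2 fun x hx => tri_inj hTr x (fun y => hs _ y) hx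
    · exact tri_exact hTr a
  · refine hE.ka_left Z (Δ.ka fun i => hBk s _ ?_) (hX.ka (s + 1) t ht)
    have := (he i).2.2
    omega
  · exact hE.rgm Z (ev_surj β hu hD hb hG) (Δ.rgm hBr) hr hreg
  · exact T.Thick.cof hTr h (T.Thick.coprod _ fun i => T.Thick.shift _ T.Thick.base)

include hu hD hb hT in
/-- **the conclusion of the induction** -/
theorem thick_of_cx {TB : ∀ d, FS (Sc.sys B) (grR p n) d} (E : Env Sc O φ.Q TB)
    (hL : LiftsV Sc φ.Q) {c : ℤ} (hcov : ∀ X : 𝒯, CX Sc OX c X → Cvr Sc φ.Q c X) :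
    ∀ X : 𝒯, CX Sc OX c X → T.Thick B X := by
  have key : ∀ (j r : ℕ), r + j = n + 1 → ∀ X : 𝒯, CX Sc OX c X → Rgm OX (Sc.sys X) r →
      T.Thick B X := by
    intro j
    induction j with
    | zero =>
      intro r hr X hX hreg
      obtain rfl : r = n + 1 := by omega
      let := β.mdl (ModStr.free R X) (hX.ee.tensB hD hb).pc
      obtain ⟨Z, -⟩ := exists_Ev β β.specA2 O hu hT hD hb hX.ee
      exact H460.thick_of_reg E hL hX.ee.pc (m₀ := c) (fun k hk x => hX.conn k hk x)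
        (reg_mk Z (hX.reg0 hu hD hb Z) hreg)
    | succ j ih =>
      intro r hr X hX hreg
      obtain ⟨X₁, h1, h2, h3⟩ := hX.syz hu hD hb hT φ (hcov X hX) (by omega) hreg
      exact h3 (ih (r + 1) (by omega) X₁ h1 h2)
  exact fun X hX => key (n + 1) 0 (zero_add _) X hX fun m hm => absurd hm (Nat.not_lt_zero _)

end step

end Vale.Agent.P221.H543
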