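import Vale.Agent.P221.H543.Main
import Vale.Agent.P221.Loc.Pc

/-!
# P221 (helper543): connective covers and the reduction to `CX`

* `ka_cov` : Koszul exactness of a connective cover in high degrees;
* `cx_cov` : high connective covers are in `CX`;
* `thick_of_high` : `X` `p`-complete, bounded below, with homotopy groups finitely generated over
  `ℤ_p`, even in high degrees and with Koszul exactness in high degrees; then `X` is in `Thick B`.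
-/

open CategoryTheory MonoidalCategory MonObj Limits Pretriangulated

set_option linter.unusedSectionVars false

universe u

noncomputable section

namespace Vale.Agent.P221.H543

open Vale.Agent.P251 Vale.Agent.P251.S Vale.Agent.P251.T Vale.Agent.P251.M Vale.Agent.P251.F
  Vale.Agent.P251.I EvenSpheres Vale.Agent.P257.H80 Vale.Agent.P257.H762 Vale.Agent.P221.H246
  Vale.Agent.P221.Loc Vale.Agent.P221.E Vale.Agent.P221.E.H817
open Vale.Agent.P221.H395 (PComplete)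
open Vale.Agent.P221.T (fm fm_comp shift_fm fm_assoc gc comp_gc gc_map gc_comp gc_surj
  gc_zero_left BPS PiM zr KK GG HK dT SrcT Lead OpAlg SysMap Sys tri_exact
  tri_inj FormD decomp pComplete_coprod pi_shift_zero hat FinZp Env sV FS grR)
open Vale.Agent.P221.H460 (Ev OpX psi HomD exists_psi' Nm HS HS_fg)
open Vale.Agent.P221.H377 (AA ofA xx D0 W Rg)
open Vale.Agent.P221.T.H746 (RN)
open Vale.Agent.P221.H626
open Vale.Agent.P221.V (LiftsV)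

section alg

variable {F F' F'' : Type*} [AddCommGroup F] [AddCommGroup F'] [AddCommGroup F'']
  {x : ℕ → F →+ F} {x' : ℕ → F' →+ F'} {gr : ℤ → AddSubgroup F} {gr' : ℤ → AddSubgroup F'}
  {dg : ℕ → ℤ}

theorem kc_punit : ∀ (r : ℕ) (z : KC PUnit.{1} r), z = 0 := by
  intro r
  induction r with
  | zero => exact fun z => rfl
  | succ r ih => exact fun z => pr_ext (ih _) (ih _)

/-- Koszul exactness and isomorphisms in high degrees -/
theorem ex_of_bij {f : F →+ F'} {c : ℤ}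
    (E : SE f (0 : F' →+ PUnit.{1}) gr gr' (fun _ => ⊥) c) (h0 : ∀ a, 0 ≤ dg a)
    (hm : ∀ (a : ℕ) (k : ℤ), ∀ z ∈ gr k, x a z ∈ gr (k + dg a))
    (hf : ∀ a z, f (x a z) = x' a (f z)) {r : ℕ} {s t : ℤ} (ht : c + Wd dg r ≤ t)
    (h2 : Ex x' gr' dg r s t) : Ex x gr dg r s t := by
  intro z hz hd
  obtain ⟨y₂, hy₂, hy₂'⟩ := h2 (kmap f r z) (kmap_mem' E.mem_f hz) (by
    rw [← kmap_kd hf, hd, map_zero])
  obtain ⟨u, hu, hu'⟩ := E.ex' h0 ht hy₂ (kc_punit _ _)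
  refine ⟨u, hu, ?_⟩
  have h5 : kmap f r (kd x r u - z) = 0 := by
    rw [map_sub, kmap_kd hf, hu', hy₂', sub_self]
  have h6 := kd_mem hm hu
  rw [add_sub_cancel_right] at h6
  exact sub_eq_zero.1 (E.inj' h0 ht (AddSubgroup.sub_mem _ h6 hz) h5)

end alg

variable {𝒯 : Type u} [Category.{0} 𝒯] [Preadditive 𝒯] [HasZeroObject 𝒯]
    [HasShift 𝒯 ℤ] [∀ n : ℤ, (shiftFunctor 𝒯 n).Additive] [Pretriangulated 𝒯] [IsTriangulated 𝒯]
    [MonoidalCategory 𝒯] [SymmetricCategory 𝒯] [TensorTriangulated 𝒯] [MonoidalClosed 𝒯]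
    [HasCoproducts.{0} 𝒯] [HasProducts.{0} 𝒯] [StableCat 𝒯]

variable {p : ℕ} [hp : Fact p.Prime] {n : ℕ} {R : 𝒯} [MonObj R] [IsCommMonObj R]
  {P W₀ : 𝒯} {β : BPS p R P W₀} {ld : Lead p n} {Sc : SrcT p n P} {O : OpAlg ld Sc.src}
  {OX : OpX O} {B : 𝒯}

/-- Koszul exactness of a connective cover -/
theorem ka_cov (h0 : Conn (0 : ℤ) (𝟙_ 𝒯)) (hP : BigCell 𝒯 0 P) {c : ℤ} {Y X : 𝒯} {f : Y ⟶ X}
    (hf : IsCov c f) {r : ℕ} {s t : ℤ} (ht : c + Wd (sV p) r ≤ t) (h : KA OX (Sc.sys X) r s t) :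
    KA OX (Sc.sys Y) r s t := by
  have hPt : ∀ k, c ≤ k → BigCell 𝒯 c (P⟦k⟧) := fun k hk =>
    (hP.shift k k (by ring)).mono hk
  have E : SE (mapA (Sc.map0 f)) (0 : AA (Sc.sys X) →+ PUnit.{1}) (grA (Sc.sys Y))
      (grA (Sc.sys X)) (fun _ => ⊥) c :=
    { mem_f := fun k z hz => mapA_mem _ hz
      mem_g := fun _ _ _ => AddSubgroup.zero_mem _
      comp := fun _ _ _ _ => rfl
      inj := fun k hk z hz h => by
        obtain ⟨a, rfl⟩ := exists_of_mem_grA hz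
        rw [mapA_of] at h
        have h1 := ofA_inj k (h.trans (map_zero _).symm)
        change P⟦k⟧ ⟶ Y at a
        have h2 : a ≫ f = 0 := (Sc.map0_f f k a).symm.trans h1
        have h3 : a = 0 := hf.ext h0 (hPt k hk) (h2.trans zero_comp.symm)
        have h4 : ofA (Sc.sys Y) k 0 = 0 := map_zero _
        exact (congrArg (ofA (Sc.sys Y) k) h3).trans h4
      ex := fun k hk z hz _ => by
        obtain ⟨a, rfl⟩ := exists_of_mem_grA hz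
        change P⟦k⟧ ⟶ X at a
        obtain ⟨g, hg⟩ := hf.exists_lift h0 (hPt k hk) a
        exact ⟨ofA (Sc.sys Y) k g, of_mem_grA _ _ _, (mapA_of (Sc.map0 f) k g).trans
          (congrArg (ofA (Sc.sys X) k) ((Sc.map0_f f k g).trans hg))⟩
      sur := fun _ _ _ _ => ⟨0, AddSubgroup.zero_mem _, rfl⟩ }
  exact ex_of_bij E (fun a => Vale.Agent.P221.T.H746.sV_nonneg p a) (fun a k z hz => xo_mem a k z hz)
    (fun a z => mapA_xo _ a z) ht h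

theorem Wd_nonneg' (r : ℕ) : 0 ≤ Wd (sV p) r := Finset.sum_nonneg fun a _ => Vale.Agent.P221.T.H746.sV_nonneg p a

/-- high covers -/
theorem cx_cov (h0 : Conn (0 : ℤ) (𝟙_ 𝒯)) (hP : BigCell 𝒯 0 P) {c : ℤ} {Y X : 𝒯} {f : Y ⟶ X}
    (hf : IsCov c f) (hX : PComplete p X)
    (hev : ∀ k : ℤ, c ≤ k → ¬ (2 : ℤ) ∣ k → ∀ x : (𝟙_ 𝒯)⟦k⟧ ⟶ X, x = 0)
    (hfin : ∀ k : ℤ, FinZp p ((𝟙_ 𝒯)⟦k⟧ ⟶ X))
    (hka : ∀ t, c ≤ t → ∀ s, KA OX (Sc.sys X) (n + 1) s t) : CX Sc OX c Y := by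
  obtain ⟨C, i, δ, hC⟩ := distinguished_cocone_triangle ((p : ℤ) • 𝟙 (𝟙_ 𝒯) : 𝟙_ 𝒯 ⟶ 𝟙_ 𝒯)
  have hYc : Conn c Y := BigCell.conn' h0 hf.cell
  refine ⟨⟨EvPi.of_zero fun k hk x => ?_, hf.pComplete hC h0 hX, c, hYc⟩, hYc, fun k => ?_,
    fun s t ht => ka_cov h0 hP hf ht (hka t ?_ s)⟩
  · rcases lt_or_ge k c with h | h
    · exact hYc k h x
    · refine (hf.bij k h).1 ?_
      exact (hev k h hk _).trans (hev k h hk _).symm
  · rcases lt_or_ge k c with h | h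
    · exact FinZp.of_zero fun x => hYc k h x
    · exact FinZp.of_equiv (AddEquiv.ofBijective (Preadditive.rightComp _ f) (hf.bij k h)) (hfin k)
  · have := Wd_nonneg' (p := p) (n + 1)
    omega

variable {D : MUData 𝒯} {F : SpaceFunctor 𝒯} {eF : F.S.obj CCF ≅ (stdEven 𝒯).L}
  {b₀ : D.R ⟶ R} [IsMonHom b₀]

include β in
theorem bigCell_P (h0 : Conn (0 : ℤ) (𝟙_ 𝒯)) : BigCell 𝒯 0 P := by
  refine bigCell_of_conn h0 fun k hk x => ?_
  obtain ⟨f, ⟨hf, hz⟩, -⟩ := β.free k x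
  rw [H460.HK_neg_eq_zero hk hf, map_zero] at hz
  exact Vale.Agent.P221.T.PiM.of_injective P k (hz.trans (map_zero _).symm)

/-- **objects with Koszul exactness in high degrees** -/
theorem thick_of_high (hu : Sc.u = η[R] ≫ β.c) (hD : MUUniv eF D) (hb : IsBPMon p b₀)
    (hT : ∀ (m : ℤ) (g : P⟦m⟧ ⟶ P), O.T m g = β.T g) (φ : FormD β n B)
    {TB : ∀ d, FS (Sc.sys B) (grR p n) d} (E : Env Sc O φ.Q TB)
    (hL : LiftsV Sc φ.Q) (hcov : ∀ (c : ℤ) (X : 𝒯), CX Sc OX c X → Cvr Sc φ.Q c X)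
    {X : 𝒯} (hX : PComplete p X) {m₀ : ℤ} (hm : Conn m₀ X)
    (hfin : ∀ k : ℤ, FinZp p ((𝟙_ 𝒯)⟦k⟧ ⟶ X)) {k₀ : ℤ}
    (hev : ∀ k : ℤ, k₀ ≤ k → ¬ (2 : ℤ) ∣ k → ∀ x : (𝟙_ 𝒯)⟦k⟧ ⟶ X, x = 0)
    (hK : ExHigh (xo OX (Sc.sys X)) (grA (Sc.sys X)) (sV p) (n + 1)) : T.Thick B X := by
  have h0 : Conn (0 : ℤ) (𝟙_ 𝒯) := D.conn_unit
  have hP : BigCell 𝒯 0 P := bigCell_P (β := β) h0
  obtain ⟨t₀, ht₀⟩ := hK
  let c : ℤ := max k₀ t₀
  obtain ⟨Y, f, hf⟩ := exists_cov c X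
  have hY : CX Sc OX c Y := cx_cov h0 hP hf hX
    (fun k hk => hev k (le_trans (le_max_left _ _) hk)) hfin
    (fun t ht s => ht₀ t (le_trans (le_max_right _ _) ht) s)
  have hYT : T.Thick B Y := thick_of_cx hu hD hb hT φ E hL (hcov c) Y hY
  obtain ⟨Q, g, h, hTr⟩ := distinguished_cocone_triangle f
  have hQp : PComplete p Q := PComplete.ext₃ _ hTr hY.ee.pc hX
  have hQz : ∀ j, c ≤ j → ∀ x : (𝟙_ 𝒯)⟦j⟧ ⟶ Q, x = 0 := fun j hj x => hf.cof_zero h0 hTr j hj x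
  have hYs : ∀ j, j < c → ∀ x : (𝟙_ 𝒯)⟦j⟧ ⟶ Y⟦(1 : ℤ)⟧, x = 0 := by
    intro j hj x
    have h3 : Conn (c + 1) (Y⟦(1 : ℤ)⟧) := (show Conn c Y from hY.conn).shift 1 _ rfl
    exact h3 j (by omega) x
  have hsur : ∀ j, j < c → ∀ x : (𝟙_ 𝒯)⟦j⟧ ⟶ Q, ∃ y : (𝟙_ 𝒯)⟦j⟧ ⟶ X, y ≫ g = x := by
    intro j hj x
    obtain ⟨y, hy⟩ := dist_co₃ hTr x (hYs j hj _)
    exact ⟨y, hy.symm⟩
  have hQm : ∀ k, k < m₀ → ∀ x : (𝟙_ 𝒯)⟦k⟧ ⟶ Q, x = 0 := by
    intro k hk x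
    rcases lt_or_ge k c with h1 | h1
    · obtain ⟨y, rfl⟩ := hsur k h1 x
      rw [hm k hk y, zero_comp]
    · exact hQz k h1 x
  have hQT : T.Thick B Q := E.low (c - m₀).toNat Q m₀ c (by omega) hQp hQz hQm fun k => by
    rcases lt_or_ge k c with h1 | h1
    · exact finZp_of_surj (H626.uniq_hom hQp _) (Preadditive.rightComp _ g) (hsur k h1) (hfin k)
    · exact FinZp.of_zero fun x => hQz k h1 x
  exact T.Thick.ext hTr hYT hQT

end Vale.Agent.P221.H543
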