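import Vale.Agent.P221.H543.Snake
import Vale.Agent.P221.H377.Sys
import Vale.Agent.P221.H626.Kos

/-!
# P221 (helper543): Koszul exactness and short exact sequences of systems

* `KA X Y r s t` : the Koszul complex of `v_0, …, v_{r-1}` on `⨁ A_k` is exact in homological degree
  `s` and internal degree `t`;
* `mapA` : the map of `⨁ A_k` induced by a map of systems;
* `SSES` : short exact sequences of systems; `SSES.ses`, `SSES.ka_left`.
-/

open MvPolynomial

set_option linter.unusedSectionVars false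

namespace Vale.Agent.P221.H543

open Vale.Agent.P221.T Vale.Agent.P221.T.H746 Vale.Agent.P221.H460 Vale.Agent.P221.H377
  Vale.Agent.P221.H626

variable {p : ℕ} [hp : Fact p.Prime] {n : ℕ}

section sys

variable {S : Src p n} (Y : Sys S)

/-- the homogeneous elements of degree `k` -/
noncomputable def grA (k : ℤ) : AddSubgroup (AA Y) := (ofA Y k).range

theorem of_mem_grA (k : ℤ) (a : Y.A k) : ofA Y k a ∈ grA Y k := ⟨a, rfl⟩

variable {Y}

theorem exists_of_mem_grA {k : ℤ} {α : AA Y} (h : α ∈ grA Y k) : ∃ a, ofA Y k a = α := h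

theorem ofA_inj (k : ℤ) : Function.Injective (ofA Y k) := DirectSum.of_injective _

theorem opA_mem {m : ℤ} (γ : S.E m) {k : ℤ} {α : AA Y} (h : α ∈ grA Y k) :
    opA Y γ α ∈ grA Y (k + m) := by
  obtain ⟨a, rfl⟩ := exists_of_mem_grA h
  rw [opA_of Y rfl]
  exact of_mem_grA _ _ _

/-- elements with prescribed components -/
theorem exists_AA (s : Finset ℤ) (b : ∀ k, Y.A k) : ∃ β : AA Y, (∀ k ∈ s, β k = b k) ∧
    ∀ k, k ∉ s → β k = 0 := by
  classical
  have h0 : ∀ k, (∑ j ∈ s, ofA Y j (b j)) k = ∑ j ∈ s, (ofA Y j (b j)) k := fun k => by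
    induction s using Finset.induction_on with
    | empty => rw [Finset.sum_empty, Finset.sum_empty, DirectSum.zero_apply]
    | insert a s ha ih => rw [Finset.sum_insert ha, Finset.sum_insert ha, DirectSum.add_apply, ih]
  refine ⟨∑ k ∈ s, ofA Y k (b k), fun k hk => ?_, fun k hk => ?_⟩
  · rw [h0, Finset.sum_eq_single k]
    · exact DirectSum.of_eq_same _ _
    · intro j _ hj
      exact DirectSum.of_eq_of_ne _ _ _ hj.symm
    · exact fun h => absurd hk h
  · rw [h0]
    refine Finset.sum_eq_zero fun j hj => ?_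
    refine DirectSum.of_eq_of_ne _ _ _ ?_
    rintro rfl
    exact hk hj

theorem AA_ext {α β : AA Y} (h : ∀ k, α k = β k) : α = β := DFinsupp.ext h

variable {Y' : Sys S}

/-- the map induced by a map of systems -/
noncomputable def mapA (φ : SysMap Y Y' 0) : AA Y →+ AA Y' :=
  DirectSum.toAddMonoid fun k => (ofA Y' k).comp (φ.f (add_zero k))

theorem mapA_of (φ : SysMap Y Y' 0) (k : ℤ) (a : Y.A k) :
    mapA φ (ofA Y k a) = ofA Y' k (φ.f (add_zero k) a) :=
  DirectSum.toAddMonoid_of _ _ _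

theorem mapA_apply (φ : SysMap Y Y' 0) (α : AA Y) (k : ℤ) :
    (mapA φ α) k = φ.f (add_zero k) (α k) := by
  classical
  refine ind Y (Q := fun α => (mapA φ α) k = φ.f (add_zero k) (α k)) ?_ ?_ ?_ α
  · rw [map_zero, DirectSum.zero_apply, DirectSum.zero_apply, map_zero]
  · intro l a
    rw [mapA_of]
    by_cases h : k = l
    · subst h
      rw [DirectSum.of_eq_same, DirectSum.of_eq_same]
    · rw [DirectSum.of_eq_of_ne _ _ _ h, DirectSum.of_eq_of_ne _ _ _ h, map_zero]
  · intro α β hα hβ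
    rw [map_add, DirectSum.add_apply, DirectSum.add_apply, hα, hβ, map_add]

theorem mapA_mem (φ : SysMap Y Y' 0) {k : ℤ} {α : AA Y} (h : α ∈ grA Y k) :
    mapA φ α ∈ grA Y' k := by
  obtain ⟨a, rfl⟩ := exists_of_mem_grA h
  rw [mapA_of]
  exact of_mem_grA _ _ _

theorem mapA_op (φ : SysMap Y Y' 0) {m : ℤ} (γ : S.E m) (α : AA Y) :
    mapA φ (opA Y γ α) = opA Y' γ (mapA φ α) := by
  refine ind Y (Q := fun α => mapA φ (opA Y γ α) = opA Y' γ (mapA φ α)) ?_ ?_ ?_ α
  · simp only [map_zero]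
  · intro k a
    rw [opA_of Y rfl, mapA_of, mapA_of, opA_of Y' rfl]
    congr 1
    exact φ.act rfl (add_zero k) rfl (add_zero _) a γ
  · intro α β h h'
    simp only [map_add, h, h']

end sys

section ka

variable {ld : Lead p n} {S : Src p n} {O : OpAlg ld S} (X : OpX O)

/-- the operators `v_a` as homomorphisms -/
noncomputable def xo (Y : Sys S) (a : ℕ) : AA Y →+ AA Y := xx X Y a

/-- Koszul exactness -/
def KA (Y : Sys S) (r : ℕ) (s t : ℤ) : Prop := Ex (xo X Y) (grA Y) (sV p) r s t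

variable {X} {Y Y' : Sys S}

theorem xo_mem (a : ℕ) (k : ℤ) (α : AA Y) (h : α ∈ grA Y k) : xo X Y a α ∈ grA Y (k + sV p a) :=
  opA_mem _ h

theorem xo_comm {M : Type} [AddCommGroup M] [Module (KK p) M] (Z : Ev O Y M) (a b : ℕ)
    (α : AA Y) : xo X Y a (xo X Y b α) = xo X Y b (xo X Y a α) :=
  comm_apply (xx_comm Z X a b) α

theorem mapA_xo (φ : SysMap Y Y' 0) (a : ℕ) (α : AA Y) :
    mapA φ (xo X Y a α) = xo X Y' a (mapA φ α) := mapA_op φ _ α

end ka

section sses

variable {S : Src p n} {Y₁ Y Y₂ : Sys S}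

/-- short exact sequences of systems -/
structure SSES (i : SysMap Y₁ Y 0) (f : SysMap Y Y₂ 0) : Prop where
  fi : ∀ k (a : Y₁.A k), f.f (add_zero k) (i.f (add_zero k) a) = 0
  inj : ∀ k (a : Y₁.A k), i.f (add_zero k) a = 0 → a = 0
  ex : ∀ k (a : Y.A k), f.f (add_zero k) a = 0 → ∃ b, i.f (add_zero k) b = a
  sur : ∀ k, Function.Surjective (f.f (add_zero k))
  inj' : ∀ k (x : Y₁.Pi k), i.g (add_zero k) x = 0 → x = 0
  ex' : ∀ k (x : Y.Pi k), f.g (add_zero k) x = 0 → ∃ y, i.g (add_zero k) y = x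
  ev : ∀ k, Function.Surjective (Y₁.ev k)

namespace SSES

variable {i : SysMap Y₁ Y 0} {f : SysMap Y Y₂ 0} (E : SSES i f)

include E

/-- the exact sequence of graded groups -/
theorem se (c : ℤ) : SE (mapA i) (mapA f) (grA Y₁) (grA Y) (grA Y₂) c where
  mem_f _ _ h := mapA_mem i h
  mem_g _ _ h := mapA_mem f h
  comp k _ z hz := by
    obtain ⟨a, rfl⟩ := exists_of_mem_grA hz
    rw [mapA_of, mapA_of, E.fi, map_zero]
  inj k _ z hz h := by
    obtain ⟨a, rfl⟩ := exists_of_mem_grA hz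
    rw [mapA_of] at h
    rw [E.inj k a (ofA_inj k (h.trans (map_zero _).symm)), map_zero]
  ex k _ z hz h := by
    obtain ⟨a, rfl⟩ := exists_of_mem_grA hz
    rw [mapA_of] at h
    obtain ⟨b, hb⟩ := E.ex k a (ofA_inj k (h.trans (map_zero _).symm))
    exact ⟨ofA Y₁ k b, of_mem_grA _ _ _, by rw [mapA_of, hb]⟩
  sur k _ z hz := by
    obtain ⟨a, rfl⟩ := exists_of_mem_grA hz
    obtain ⟨b, hb⟩ := E.sur k a
    exact ⟨ofA Y k b, of_mem_grA _ _ _, by rw [mapA_of, hb]⟩

variable {ld : Lead p n} {O : OpAlg ld S} (X : OpX O)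

/-- the exact sequence of groups with operators -/
noncomputable def ses : SES (D0 Y₁) (xx X Y₁) (D0 Y) (xx X Y) (D0 Y₂) (xx X Y₂) where
  i := mapA i
  f := mapA f
  i_x m a := mapA_op i _ a
  f_x m a := mapA_op f _ a
  f_i a := AA_ext fun k => by
    rw [mapA_apply, mapA_apply, E.fi, DirectSum.zero_apply]
  ex a h := by
    classical
    have h1 : ∀ k, ∃ b, i.f (add_zero k) b = a k := fun k => E.ex k (a k) (by
      rw [← mapA_apply, h, DirectSum.zero_apply])
    choose b hb using h1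
    obtain ⟨β, hβ, hβ'⟩ := exists_AA (DFinsupp.support a) b
    refine ⟨β, AA_ext fun k => ?_⟩
    rw [mapA_apply]
    by_cases hk : k ∈ DFinsupp.support a
    · rw [hβ k hk, hb]
    · rw [hβ' k hk, map_zero]
      exact (DFinsupp.notMem_support_iff.1 hk).symm
  f_surj β := by
    refine ind Y₂ (Q := fun β => ∃ α, mapA f α = β) ⟨0, map_zero _⟩ ?_ ?_ β
    · intro k a
      obtain ⟨b, rfl⟩ := E.sur k a
      exact ⟨ofA Y k b, mapA_of _ _ _⟩
    · rintro _ _ ⟨α, rfl⟩ ⟨β, rfl⟩
      exact ⟨α + β, map_add _ _ _⟩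
  D₁_iff a := by
    rw [mem_D0, mem_D0]
    refine forall_congr' fun k => ?_
    rw [mapA_apply, i.ev]
    exact ⟨fun h => by rw [h, map_zero], fun h => E.inj' k _ h⟩
  D₂_of a ha k := by
    rw [mapA_apply, f.ev, ha k, map_zero]
  D₂_lift a ha := by
    classical
    have h1 : ∀ k, ∃ b : Y₁.A k, i.g (add_zero k) (Y₁.ev k b) = Y.ev k (a k) := fun k => by
      have h2 := ha k
      rw [mapA_apply, f.ev] at h2
      obtain ⟨y, hy⟩ := E.ex' k _ h2
      obtain ⟨b, rfl⟩ := E.ev k y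
      exact ⟨b, hy⟩
    choose b hb using h1
    obtain ⟨β, hβ, hβ'⟩ := exists_AA (DFinsupp.support a) b
    refine ⟨β, fun k => ?_⟩
    rw [DirectSum.sub_apply, map_sub, sub_eq_zero, mapA_apply, i.ev]
    by_cases hk : k ∈ DFinsupp.support a
    · rw [hβ k hk, hb]
    · have h3 : a k = 0 := DFinsupp.notMem_support_iff.1 hk
      rw [hβ' k hk, h3, map_zero, map_zero, map_zero]

variable {X} {M₁ M M₂ : Type} [AddCommGroup M₁] [Module (KK p) M₁] [AddCommGroup M]
  [Module (KK p) M] [AddCommGroup M₂] [Module (KK p) M₂]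

/-- **Koszul exactness of the kernel** -/
theorem ka_left (Z : Ev O Y M) {r : ℕ} {s t : ℤ} (h : KA X Y r s t) (h₂ : KA X Y₂ r (s + 1) t) :
    KA X Y₁ r s t :=
  (E.se (t - Wd (sV p) r)).ex_left (fun a => sV_nonneg p a) (fun a k z hz => xo_mem a k z hz)
    (fun a k z hz => xo_mem a k z hz) (fun a z => mapA_xo i a z) (fun a z => mapA_xo f a z)
    (fun a b z => xo_comm Z a b z) (by rw [sub_add_cancel]) h h₂

end SSES

end sses

end Vale.Agent.P221.H543
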