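import Vale.Agent.P221.H460.C0b

/-!
# P221 (helper543): generators of an even system, without the regularity

* `Reg0 Z X` : the structure `Reg Z X` without the injectivity of `v_m` on `π_* X / N_m`;
* `exists_family0`, `exists_psi_eq0` : homogeneous elements whose classes form a basis of
  `π_* X / N_{n+1}`; they generate `π_* X` (the proofs of helper460 in `C0b` do not use the
  injectivity).
-/

open MvPolynomial

set_option linter.unusedSectionVars false

namespace Vale.Agent.P221.H543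

open Vale.Agent.P221.T Vale.Agent.P221.T.H746 Vale.Agent.P221.H460

variable {p : ℕ} [hp : Fact p.Prime] {n : ℕ}
  {ld : Lead p n} {S : Src p n} {O : OpAlg ld S}
  {Y : Sys S} {M : Type} [AddCommGroup M] [Module (KK p) M] {Z : Ev O Y M} {X : OpX O}

/-- `Reg` without the injectivity -/
structure Reg0 (Z : Ev O Y M) (X : OpX O) : Prop where
  /-- restriction along the unit is onto -/
  surj : ∀ k, Function.Surjective (Y.ev k)
  /-- multiplication by `v_m` is well defined on `π_* X / N_m` -/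
  wd : ∀ m ≤ n, ∀ (k : ℤ) (a : Y.A (k - sV p m)), Y.ev _ a = 0 →
    ∃ x ∈ Nm Z X m k, Z.e k x = Z.c _ a (X.eta (vK p m))
  /-- bounded below -/
  bdd : ∃ m₀ : ℤ, ∀ k < m₀, ∀ x : Y.Pi k, x = 0
  /-- `π_* X / N_{n+1}` is finite -/
  fin : ∀ k, Finite (Y.Pi k ⧸ Nm Z X (n + 1) k)
  fin' : ∃ m₁ : ℤ, ∀ k, m₁ < k → ∀ x : Y.Pi k, x ∈ Nm Z X (n + 1) k
  /-- `p`-completeness -/
  cpl : ∀ (k : ℤ) (z : ℕ → Y.Pi k), (∀ i, z i = p • z (i + 1)) → ∀ i, z i = 0

theorem mem_N1_of_p0 (hR : Reg0 Z X) {k : ℤ} (x : Y.Pi k) {m : ℕ} (hm : 1 ≤ m) :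
    p • x ∈ Nm Z X m k := by
  apply Nm_mono hm
  have e0 : k - sV p 0 = k := by simp [sV]
  have h1 : ∀ j, k - sV p 0 = j → ∀ y : Y.Pi k, ∃ b : Y.A j, Z.c j b 1 = Z.e k y := by
    intro j hj y
    obtain rfl : j = k := by omega
    obtain ⟨b, hb⟩ := hR.surj j y
    exact ⟨b, by rw [← Z.ev, hb]⟩
  obtain ⟨b, hb⟩ := h1 _ rfl x
  refine ⟨fun a => (show ((a : Fin 1) : ℕ) = 0 by omega) ▸ b, ?_⟩
  rw [Fin.sum_univ_one]
  change _ = Z.c (k - sV p 0) b (X.eta (vK p 0))
  have h2 : X.eta (vK p 0) = p • (1 : GG p) := by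
    change X.eta ((p : ℕ) : KK p) = _
    rw [map_natCast, nsmul_eq_mul, _root_.mul_one]
  rw [h2, map_nsmul, map_nsmul, hb]

/-- **homogeneous elements whose classes form a basis of `π_* X / N_{n+1}`** -/
theorem exists_family0 (hR : Reg0 Z X) : ∃ (r : ℕ) (e : Fin r → ℤ) (g : ∀ i, Y.A (e i)),
    (∀ (k : ℤ) (x : Y.Pi k), ∃ c : Fin r → ℕ, (∀ i, e i ≠ k → c i = 0) ∧
      ∃ y ∈ Nm Z X (n + 1) k, Z.e k x = ∑ i, c i • Z.c (e i) (g i) 1 + Z.e k y) ∧
    ∀ (k : ℤ) (c : Fin r → ℕ), (∀ i, e i ≠ k → c i = 0) →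
      (∃ y ∈ Nm Z X (n + 1) k, ∑ i, c i • Z.c (e i) (g i) 1 = Z.e k y) → ∀ i, p ∣ c i := by
  classical
  obtain ⟨m₀, hm₀⟩ := hR.bdd
  obtain ⟨m₁, hm₁⟩ := hR.fin'
  -- bases in each degree
  have hb : ∀ k : ℤ, ∃ (m : ℕ) (b : Fin m → (Y.Pi k ⧸ Nm Z X (n + 1) k)),
      (∀ x, ∃ c : Fin m → ℕ, x = ∑ j, c j • b j) ∧
      ∀ c : Fin m → ℕ, ∑ j, c j • b j = 0 → ∀ j, p ∣ c j := by
    intro k
    have := hR.fin k
    refine exists_fin_basis _ fun x => ?_
    obtain ⟨x, rfl⟩ := QuotientAddGroup.mk_surjective x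
    rw [← QuotientAddGroup.mk_nsmul, QuotientAddGroup.eq_zero_iff]
    exact mem_N1_of_p0 hR x (by omega)
  choose m b hb1 hb2 using hb
  have hlift : ∀ (k : ℤ) (j : Fin (m k)), ∃ a : Y.A k,
      (QuotientAddGroup.mk (Y.ev k a) : Y.Pi k ⧸ Nm Z X (n + 1) k) = b k j := by
    intro k j
    obtain ⟨x, hx⟩ := QuotientAddGroup.mk_surjective (b k j)
    obtain ⟨a, rfl⟩ := hR.surj k x
    exact ⟨a, hx⟩
  choose g hg using hlift
  let I : Finset ℤ := Finset.Icc m₀ m₁
  let ι : Type := Σ k : I, Fin (m k.1)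
  let q : Fin (Fintype.card ι) ≃ ι := (Fintype.equivFin ι).symm
  -- sums over `ι`
  have hsum : ∀ (k : ℤ) (F : ι → M), (∀ i : ι, i.1.1 ≠ k → F i = 0) → ∀ hk : k ∈ I,
      ∑ i, F (q i) = ∑ j : Fin (m k), F ⟨⟨k, hk⟩, j⟩ := by
    intro k F hF hk
    rw [q.sum_comp, Fintype.sum_sigma, Finset.sum_eq_single (⟨k, hk⟩ : I)]
    · intro k' _ hk'
      refine Finset.sum_eq_zero fun j _ => hF _ fun h => hk' (Subtype.ext h)
    · intro h
      exact absurd (Finset.mem_univ _) h
  -- the values of combinations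
  have hval : ∀ (k : ℤ) (c : Fin (m k) → ℕ), ∃ x : Y.Pi k,
      (QuotientAddGroup.mk x : Y.Pi k ⧸ Nm Z X (n + 1) k) = ∑ j, c j • b k j ∧
        Z.e k x = ∑ j, c j • Z.c k (g k j) 1 := by
    intro k c
    refine ⟨∑ j, c j • Y.ev k (g k j), ?_, ?_⟩
    · rw [← QuotientAddGroup.mk'_apply, map_sum]
      refine Finset.sum_congr rfl fun j _ => ?_
      rw [map_nsmul, QuotientAddGroup.mk'_apply, hg]
    · rw [map_sum]
      refine Finset.sum_congr rfl fun j _ => ?_
      rw [map_nsmul, Z.ev]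
  refine ⟨Fintype.card ι, fun i => (q i).1.1, fun i => g _ (q i).2, fun k x => ?_, fun k c hc hy i => ?_⟩
  · by_cases hk : k ∈ I
    · obtain ⟨c, hc⟩ := hb1 k (QuotientAddGroup.mk x)
      let c' : ι → ℕ := fun i => if h : i.1.1 = k then c (Fin.cast (by rw [h]) i.2) else 0
      have h0 : ∀ i : ι, i.1.1 ≠ k → c' i = 0 := fun i hi => dif_neg hi
      refine ⟨fun i => c' (q i), fun i hi => h0 _ hi, ?_⟩
      obtain ⟨x', hx', hx''⟩ := hval k c
      refine ⟨x - x', ?_, ?_⟩
      · rw [← QuotientAddGroup.eq_zero_iff, QuotientAddGroup.mk_sub, hc, hx', sub_self]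
      · rw [hsum k (fun i => c' i • Z.c _ (g _ i.2) 1) (fun i hi => by rw [h0 i hi, zero_smul]) hk,
          map_sub, hx'']
        have h2 : ∑ j : Fin (m k), c' ⟨⟨k, hk⟩, j⟩ • Z.c k (g k j) 1 =
            ∑ j, c j • Z.c k (g k j) 1 := by
          refine Finset.sum_congr rfl fun j _ => ?_
          have h3 : c' ⟨⟨k, hk⟩, j⟩ = c j := dif_pos rfl
          rw [h3]
        rw [h2, add_sub_cancel]
    · refine ⟨fun _ => 0, fun _ _ => rfl, x, ?_, ?_⟩
      · rw [Finset.mem_Icc, not_and_or, not_le, not_le] at hk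
        rcases hk with hk | hk
        · rw [hm₀ k hk x]
          exact AddSubgroup.zero_mem _
        · exact hm₁ k hk x
      · simp
  · by_cases hk : (q i).1.1 = k
    · subst hk
      have hk : (q i).1.1 ∈ I := (q i).1.2
      set k := (q i).1.1 with hkdef
      obtain ⟨y, hy, hy'⟩ := hy
      let c' : ι → ℕ := fun i => c (q.symm i)
      have h0 : ∀ i : ι, i.1.1 ≠ k → c' i = 0 := fun i hi => hc _ (by
        change ((q (q.symm i)).1.1) ≠ k
        rw [Equiv.apply_symm_apply]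
        exact hi)
      have h1 : ∑ i, c i • Z.c _ (g _ (q i).2) 1 = ∑ i, c' (q i) • Z.c _ (g _ (q i).2) 1 := by
        refine Finset.sum_congr rfl fun i _ => ?_
        change c i • _ = c (q.symm (q i)) • _
        rw [Equiv.symm_apply_apply]
      rw [h1, hsum k (fun i => c' i • Z.c _ (g _ i.2) 1)
        (fun i hi => by rw [h0 i hi, zero_smul]) hk] at hy'
      obtain ⟨x', hx', hx''⟩ := hval k fun j => c' ⟨⟨k, hk⟩, j⟩
      have h2 : x' = y := Z.e_inj k (hx''.trans hy')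
      rw [h2, (QuotientAddGroup.eq_zero_iff _).2 hy] at hx'
      have h3 := hb2 k _ hx'.symm (q i).2
      have h4 : c' ⟨⟨k, hk⟩, (q i).2⟩ = c i := by
        change c (q.symm (q i)) = c i
        rw [Equiv.symm_apply_apply]
      rwa [h4] at h3
    · rw [hc i hk]
      exact dvd_zero _

variable {r : ℕ} {e : Fin r → ℤ} (g : ∀ i, Y.A (e i))

section surj

variable (hR : Reg0 Z X)
  (hs : ∀ (k : ℤ) (x : Y.Pi k), ∃ c : Fin r → ℕ, (∀ i, e i ≠ k → c i = 0) ∧
      ∃ y ∈ Nm Z X (n + 1) k, Z.e k x = ∑ i, c i • Z.c (e i) (g i) 1 + Z.e k y)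

include hR in
/-- `N_m ⊆ im ψ + p π` -/
theorem Nm_le0 {k : ℤ} (ih : ∀ k' < k, ∀ x : Y.Pi k', ∃ f : Fin r → MvPolynomial (Fin n) ℤ_[p],
    HomD p e k' f ∧ Z.e k' x = psi g Z X f) {m : ℕ} (hm : m ≤ n + 1) (x : Y.Pi k)
    (hx : x ∈ Nm Z X m k) : ∃ (f : Fin r → MvPolynomial (Fin n) ℤ_[p]) (z : Y.Pi k),
      HomD p e k f ∧ Z.e k x = psi g Z X f + p • Z.e k z := by
  induction m generalizing x with
  | zero =>
    obtain ⟨b, hb⟩ := hx
    refine ⟨fun _ => 0, 0, fun i => by rw [map_zero]; exact HK_zero _, ?_⟩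
    rw [hb, Fin.sum_univ_zero]
    unfold psi
    simp only [map_zero, Finset.sum_const_zero, smul_zero, add_zero]
  | succ m IH =>
    obtain ⟨b, hb⟩ := hx
    rw [Fin.sum_univ_castSucc] at hb
    rcases Nat.eq_zero_or_pos m with h0 | h0
    · subst h0
      refine ⟨fun _ => 0, ?_⟩
      -- `b_0 p`
      have h1 : ∃ z : Y.Pi k, Z.e k z = Z.c _ (b (Fin.last 0)) 1 := by
        have h2 : ∀ j, k - sV p 0 = j → ∀ b : Y.A j, ∃ z : Y.Pi k, Z.e k z = Z.c j b 1 := by
          intro j hj b₁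
          have e0 : k - sV p 0 = k := by simp [sV]
          obtain rfl : j = k := by omega
          exact ⟨Y.ev _ b₁, Z.ev _ b₁⟩
        exact h2 _ rfl _
      obtain ⟨z, hz⟩ := h1
      refine ⟨z, fun i => by rw [map_zero]; exact HK_zero _, ?_⟩
      have h2 : X.eta (vK p 0) = p • (1 : GG p) := by
        change X.eta ((p : ℕ) : KK p) = _
        rw [map_natCast, nsmul_eq_mul, _root_.mul_one]
      rw [hb, hz, Fin.sum_univ_zero, zero_add]
      change Z.c _ (b (Fin.last 0)) (X.eta (vK p 0)) = _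
      rw [h2, map_nsmul]
      unfold psi
      simp only [map_zero, Finset.sum_const_zero, zero_add]
    · -- `b_m v_m`
      obtain ⟨m', rfl⟩ : ∃ m', m = m' + 1 := ⟨m - 1, by omega⟩
      have hpos := sV_pos p m'
      have h1 : ∀ a : Y.A (k - sV p (m' + 1)), ∃ (f : Fin r → MvPolynomial (Fin n) ℤ_[p])
          (z : Y.Pi k), HomD p e k f ∧
            Z.c _ a (X.eta (vK p (m' + 1))) = psi g Z X f + p • Z.e k z := by
        intro a
        obtain ⟨f, hf, hfa⟩ := ih (k - sV p (m' + 1)) (by omega) (Y.ev _ a)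
        obtain ⟨a', ha', ha''⟩ := exists_psi' (X := X) (Z := Z) g hf
        have h2 : Y.ev _ (a - a') = 0 := by
          rw [map_sub, sub_eq_zero]
          exact Z.e_inj _ (hfa.trans ha''.symm)
        obtain ⟨y, hy, hy'⟩ := hR.wd (m' + 1) (by omega) k (a - a') h2
        obtain ⟨f₁, z, hf₁, hz⟩ := IH (by omega) y hy
        refine ⟨fun i => f₁ i + vq p n (m' + 1) * f i, z, fun i => ?_, ?_⟩
        · rw [map_add, map_mul, RN_vq (by omega)]
          exact (hf₁ i).add (HK_cast (by ring) ((HK_vK (m' + 1)).mul (hf i)))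
        · have h3 : Z.c _ a (X.eta (vK p (m' + 1))) = Z.e k y +
              Z.c _ a' (X.eta (vK p (m' + 1))) := by
            rw [hy', map_sub, LinearMap.sub_apply, sub_add_cancel]
          rw [h3, hz, psi_add, ha']
          have h4 : psi g Z X (fun i => vq p n (m' + 1) * f i) =
              ∑ i, Z.c (e i) (g i) (X.eta (RN p n (f i)) * X.eta (vK p (m' + 1))) := by
            unfold psi
            refine Finset.sum_congr rfl fun i _ => ?_
            rw [map_mul, RN_vq (by omega), map_mul, mul_comm]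
          rw [h4]
          abel
      obtain ⟨f₁, z₁, hf₁, hz₁⟩ := h1 (b (Fin.last (m' + 1)))
      -- the rest
      have h5 : ∃ y ∈ Nm Z X (m' + 1) k, Z.e k y = ∑ i : Fin (m' + 1),
          Z.c _ (b i.castSucc) (X.eta (vK p i)) := by
        have h6 : ∃ y : Y.Pi k, Z.e k y = Z.c _ (b (Fin.last (m' + 1))) (X.eta (vK p (m' + 1))) := by
          obtain ⟨a', ha', ha''⟩ := exists_psi' (X := X) (Z := Z) g hf₁
          exact ⟨Y.ev k a' + p • z₁, by rw [map_add, ha'', map_nsmul]; exact hz₁.symm⟩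
        obtain ⟨y, hy⟩ := h6
        have h7 : Z.e k (x - y) = ∑ i : Fin (m' + 1),
            Z.c _ (b i.castSucc) (X.eta (vK p i)) := by
          rw [map_sub, hb, hy]
          exact add_sub_cancel_right _ _
        exact ⟨x - y, ⟨fun i => b i.castSucc, h7⟩, h7⟩
      obtain ⟨y, hy, hy'⟩ := h5
      obtain ⟨f₂, z₂, hf₂, hz₂⟩ := IH (by omega) y hy
      refine ⟨fun i => f₂ i + f₁ i, z₂ + z₁, fun i => ?_, ?_⟩
      · rw [map_add]
        exact (hf₂ i).add (hf₁ i)
      · rw [psi_add, map_add, smul_add, hb]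
        change ∑ i : Fin (m' + 1), Z.c _ (b i.castSucc) (X.eta (vK p i)) +
          Z.c _ (b (Fin.last (m' + 1))) (X.eta (vK p (m' + 1))) = _
        rw [← hy', hz₂]
        refine (congrArg (fun q => psi g Z X f₂ + p • Z.e k z₂ + q) hz₁).trans ?_
        abel

include hR hs in
/-- **`ψ` is onto** -/
theorem exists_psi_eq0 (k : ℤ) (x : Y.Pi k) : ∃ f : Fin r → MvPolynomial (Fin n) ℤ_[p],
    HomD p e k f ∧ Z.e k x = psi g Z X f := by
  obtain ⟨m₀, hm₀⟩ := hR.bdd
  -- induction on the degree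
  have key : ∀ (N : ℕ) (k : ℤ), k < m₀ + N → ∀ x : Y.Pi k,
      ∃ f : Fin r → MvPolynomial (Fin n) ℤ_[p], HomD p e k f ∧ Z.e k x = psi g Z X f := by
    intro N
    induction N with
    | zero =>
      intro k hk x
      refine ⟨fun _ => 0, fun i => by rw [map_zero]; exact HK_zero _, ?_⟩
      rw [hm₀ k (by push_cast at hk; omega) x]
      unfold psi
      simp only [map_zero, Finset.sum_const_zero]
    | succ N ih =>
      intro k hk x
      have h1 : ∀ k' < k, ∀ x : Y.Pi k', ∃ f : Fin r → MvPolynomial (Fin n) ℤ_[p],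
          HomD p e k' f ∧ Z.e k' x = psi g Z X f := fun k' hk' => ih k' (by push_cast at hk; omega)
      -- one step
      have step : ∀ x : Y.Pi k, ∃ (f : Fin r → MvPolynomial (Fin n) ℤ_[p]) (z : Y.Pi k),
          HomD p e k f ∧ Z.e k x = psi g Z X f + p • Z.e k z := by
        intro x
        obtain ⟨c, hc, y, hy, hx⟩ := hs k x
        obtain ⟨f, z, hf, hz⟩ := Nm_le0 g hR h1 le_rfl y hy
        refine ⟨fun i => (c i : MvPolynomial (Fin n) ℤ_[p]) + f i, z, fun i => ?_, ?_⟩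
        · rw [map_add]
          exact (HomD_natCast hc i).add (hf i)
        · rw [psi_add, psi_natCast, hx, hz]
          abel
      choose F P hF hP using step
      let xs : ℕ → Y.Pi k := fun l => Nat.rec x (fun _ y => P y) l
      have hxs : ∀ l, xs (l + 1) = P (xs l) := fun l => rfl
      choose G hG1 hG2 using fun i => exists_expansion (p := p) (n := n) (k - e i)
        (fun l => F (xs l) i) (fun l => hF (xs l) i)
      choose a ha ha' using fun m => exists_psi' (X := X) (Z := Z) g (k := k)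
        (f := fun i => G i m) (fun i => hG1 i m)
      have h2 : ∀ m, xs m - Y.ev k (a m) = p • (xs (m + 1) - Y.ev k (a (m + 1))) := by
        intro m
        apply Z.e_inj k
        rw [map_sub, map_nsmul, map_sub, ha', ha', hP (xs m), hxs]
        have h3 : psi g Z X (fun i => G i m) = psi g Z X (F (xs m)) +
            p • psi g Z X (fun i => G i (m + 1)) := by
          rw [← psi_nsmul, ← psi_add]
          exact congrArg _ (funext fun i => hG2 i m)
        rw [h3, smul_sub]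
        abel
      have h3 := hR.cpl k (fun m => xs m - Y.ev k (a m)) h2 0
      refine ⟨fun i => G i 0, fun i => hG1 i 0, ?_⟩
      rw [← ha' 0]
      congr 1
      exact sub_eq_zero.1 h3
  exact key (k - m₀ + 1).toNat k (by omega) x

end surj

end Vale.Agent.P221.H543
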