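import Vale.Agent.P221.H543.Tri
import Vale.Agent.P221.H903.R2
import Vale.Agent.P221.V.H520.Main
import Vale.Agent.P221.T.H598.SB1

/-!
# P221 (helper543): covers by finite sums of suspensions of a form

`φ : FormD β n B`. For `g_i = Q⟦e i⟧' ≫ b_i : P⟦e i⟧ ⟶ X`:

* `psi_eq` : `ψ(f) = ∑ (f_i · 1) b_i`;
* `desc_surj` : if the `g_i` generate `π_* X` then `∐ B⟦e i⟧ ⟶ X` is onto on `π_*`;
* `ee_B`, `ee_coprod`.
-/

open CategoryTheory MonoidalCategory MonObj Limits Pretriangulated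

set_option linter.unusedSectionVars false

universe u

noncomputable section

namespace Vale.Agent.P221.H543

open Vale.Agent.P251 Vale.Agent.P251.S Vale.Agent.P251.T Vale.Agent.P251.M Vale.Agent.P251.F
  Vale.Agent.P251.I EvenSpheres Vale.Agent.P257.H80 Vale.Agent.P257.H762 Vale.Agent.P221.H246
  Vale.Agent.P221.Loc Vale.Agent.P221.E Vale.Agent.P221.E.H817
open Vale.Agent.P221.H395 (PComplete)
open Vale.Agent.P221.T (fm fm_comp shift_fm fm_assoc gc comp_gc gc_map gc_comp gc_surj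
  gc_zero_left BPS PiM zr KK GG HK dT SrcT Lead OpAlg SysMap Sys tri_exact
  tri_inj FormD decomp pComplete_coprod pi_shift_zero hat)
open Vale.Agent.P221.H460 (Ev OpX psi HomD exists_psi')
open Vale.Agent.P221.H377 (AA ofA xx D0 W Rg)
open Vale.Agent.P221.T.H746 (RN)
open Vale.Agent.P221.H626
open MvPolynomial (monomial coeff)

variable {𝒯 : Type u} [Category.{0} 𝒯] [Preadditive 𝒯] [HasZeroObject 𝒯]
    [HasShift 𝒯 ℤ] [∀ n : ℤ, (shiftFunctor 𝒯 n).Additive] [Pretriangulated 𝒯] [IsTriangulated 𝒯]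
    [MonoidalCategory 𝒯] [SymmetricCategory 𝒯] [TensorTriangulated 𝒯] [MonoidalClosed 𝒯]
    [HasCoproducts.{0} 𝒯] [HasProducts.{0} 𝒯] [StableCat 𝒯]

variable {p : ℕ} [hp : Fact p.Prime] {n : ℕ} {R : 𝒯} [MonObj R] [IsCommMonObj R]
  {P W₀ : 𝒯} {β : BPS p R P W₀} {ld : Lead p n} {Sc : SrcT p n P} {O : OpAlg ld Sc.src}
  {OX : OpX O}

/-- the right units agree -/
theorem eta_eq' (hT : ∀ (m : ℤ) (g : P⟦m⟧ ⟶ P), O.T m g = β.T g) (OX : OpX O) {k : ℤ} {f : KK p}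
    (hf : HK p k f) : β.eta f = OX.eta f := by
  have B2 := Vale.Agent.P221.T.H609.specB2 β β.specA1
    (Vale.Agent.P221.T.H598.specB1 β β.specA1)
  have h0 : O.T k (β.mult k f) = β.T (β.mult k f) := hT k _
  have h1 := (OX.low k 0 (β.mult k f) fun E hE =>
    absurd (H460.dT_nonneg (p := p) E) (by omega)).2 0 (Vale.Agent.P221.T.H746.dT_zero (p := p))
  have h2 : (MvPolynomial.monomial 0 1 : GG p) = 1 := rfl
  have h3 : O.T k (β.mult k f) 1 = β.eta f := by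
    rw [h0, Vale.Agent.P221.T.H598.T_mult β β.specA1 k f hf, _root_.mul_one]
  rw [h2, h3, B2.eta_zero] at h1
  exact h1

/-- the multiplications as operations -/
theorem T_mult' (hT : ∀ (m : ℤ) (g : P⟦m⟧ ⟶ P), O.T m g = β.T g) (OX : OpX O) {k : ℤ} {f : KK p}
    (hf : HK p k f) (z : GG p) : O.T k (β.mult k f) z = OX.eta f * z := by
  have h0 : O.T k (β.mult k f) = β.T (β.mult k f) := hT k _
  rw [h0, Vale.Agent.P221.T.H598.T_mult β β.specA1 k f hf, eta_eq' hT OX hf]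

/-- the unit and the multiplications -/
theorem u_mult (hu : Sc.u = η[R] ≫ β.c) (k : ℤ) (f : KK p) :
    Sc.u⟦k⟧' ≫ β.mult k f = β.cls k f := by
  rw [hu, Functor.map_comp, Category.assoc, Vale.Agent.P221.T.H598.c_mult,
    Vale.Agent.P221.T.unit_hat]

section psi

variable {X : 𝒯} {M : Type} [AddCommGroup M] [Module (KK p) M] (Z : Ev O (Sc.sys X) M)

/-- the value at `η_R(f)` -/
theorem c_eta (hu : Sc.u = η[R] ≫ β.c) (hT : ∀ (m : ℤ) (g : P⟦m⟧ ⟶ P), O.T m g = β.T g)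
    {e m k : ℤ} (h : e + m = k) (g : P⟦e⟧ ⟶ X) {f : KK p} (hf : HK p m f) :
    Z.c e g (OX.eta f) = Z.e k (gc h (β.cls m f) g) := by
  have h1 := Z.ev k ((Sc.sys X).act h g (β.mult m f))
  have h2 := LinearMap.congr_fun (Z.act h g (β.mult m f)) 1
  have h3 := T_mult' (β := β) hT OX hf 1
  rw [_root_.mul_one] at h3
  have h4 : Z.c e g (OX.eta f) = Z.c e g (O.T m (β.mult m f) 1) := congrArg (Z.c e g) h3.symm
  have h5 : (Sc.sys X).ev k ((Sc.sys X).act h g (β.mult m f)) = gc h (β.cls m f) g := by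
    change Sc.u⟦k⟧' ≫ gc h (β.mult m f) g = _
    rw [comp_gc, u_mult hu]
  exact h4.trans (h2.symm.trans (h1.symm.trans (congrArg (Z.e k) h5)))

variable {B : 𝒯} (φ : FormD β n B)

/-- the element `∑ (f_i · 1) b_i` -/
def sm {r : ℕ} {e : Fin r → ℤ} (b : ∀ i, B⟦e i⟧ ⟶ X) (k : ℤ)
    (f : Fin r → MvPolynomial (Fin n) ℤ_[p]) : (𝟙_ 𝒯)⟦k⟧ ⟶ X :=
  ∑ i, gc (by omega : e i + (k - e i) = k) (β.cls (k - e i) (RN p n (f i)) ≫ φ.Q) (b i)

/-- **the values of `ψ`** -/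
theorem psi_eq (hu : Sc.u = η[R] ≫ β.c) (hT : ∀ (m : ℤ) (g : P⟦m⟧ ⟶ P), O.T m g = β.T g)
    {r : ℕ} {e : Fin r → ℤ} (b : ∀ i, B⟦e i⟧ ⟶ X) {k : ℤ}
    {f : Fin r → MvPolynomial (Fin n) ℤ_[p]} (hf : HomD p e k f) (g : ∀ i, (Sc.sys X).A (e i))
    (hg : ∀ i, g i = φ.Q⟦e i⟧' ≫ b i) :
    psi g Z OX f = Z.e k (sm φ b k f) := by
  have h1 : Z.e k (sm φ b k f) = ∑ i, Z.e k (gc (by omega : e i + (k - e i) = k)
      (β.cls (k - e i) (RN p n (f i)) ≫ φ.Q) (b i)) := map_sum (Z.e k) _ _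
  rw [h1]
  refine Finset.sum_congr rfl fun i _ => ?_
  rw [gc_map, ← hg i]
  exact c_eta Z hu hT (by omega) (g i) (hf i)

/-- the combinations factor through the sum -/
theorem sm_desc {r : ℕ} {e : Fin r → ℤ} (b : ∀ i, B⟦e i⟧ ⟶ X) (k : ℤ)
    (f : Fin r → MvPolynomial (Fin n) ℤ_[p]) :
    ∃ z : (𝟙_ 𝒯)⟦k⟧ ⟶ ∐ fun i => B⟦e i⟧, z ≫ Sigma.desc b = sm φ b k f := by
  refine ⟨∑ i, gc (by omega : e i + (k - e i) = k) (β.cls (k - e i) (RN p n (f i)) ≫ φ.Q)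
    (Sigma.ι (fun i => B⟦e i⟧) i), ?_⟩
  rw [Preadditive.sum_comp]
  refine Finset.sum_congr rfl fun i _ => ?_
  rw [← gc_comp, Sigma.ι_desc]

/-- **`∐ B⟦e i⟧ ⟶ X` is onto on homotopy** -/
theorem desc_surj (hu : Sc.u = η[R] ≫ β.c) (hT : ∀ (m : ℤ) (g : P⟦m⟧ ⟶ P), O.T m g = β.T g)
    {r : ℕ} {e : Fin r → ℤ} (b : ∀ i, B⟦e i⟧ ⟶ X) (g : ∀ i, (Sc.sys X).A (e i))
    (hg : ∀ i, g i = φ.Q⟦e i⟧' ≫ b i)
    (hs : ∀ (k : ℤ) (x : (Sc.sys X).Pi k), ∃ f : Fin r → MvPolynomial (Fin n) ℤ_[p],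
      HomD p e k f ∧ Z.e k x = psi g Z OX f) (k : ℤ) (y : (𝟙_ 𝒯)⟦k⟧ ⟶ X) :
    ∃ z, z ≫ Sigma.desc b = y := by
  obtain ⟨f, hf, h⟩ := hs k y
  rw [psi_eq Z φ hu hT b hf g hg] at h
  obtain ⟨z, hz⟩ := sm_desc φ b k f
  exact ⟨z, hz.trans (Z.e_inj k h).symm⟩

end psi

section ee

variable {B : 𝒯} (φ : FormD β n B)

include φ in
/-- `B` is even -/
theorem ee_B : EE p B where
  ev k z := by
    obtain ⟨f, hf, rfl⟩ := H903.exists_B φ z
    rw [HK_odd (by omega) hf, H903.cls_zero, zero_comp]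
  pc := φ.hB
  bb := ⟨0, fun k hk z => φ.pi_neg k hk z⟩

/-- finite sums of even suspensions -/
theorem ee_coprod {B : 𝒯} (hB : EE p B) (h0 : ∀ (k : ℤ), k < 0 → ∀ f : (𝟙_ 𝒯)⟦k⟧ ⟶ B, f = 0)
    {r : ℕ} (e : Fin r → ℤ) (he : ∀ i, (2 : ℤ) ∣ e i) {c : ℤ} (hc : ∀ i, c ≤ e i) :
    EE p (∐ fun i => B⟦e i⟧) where
  ev k z := by
    obtain ⟨w, hw, -⟩ := decomp e (2 * k + 1) z
    rw [hw]
    refine Finset.sum_eq_zero fun i _ => ?_
    have h1 : w i = 0 := hB.ev.zero (by have := he i; omega) _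
    rw [h1, gc_zero_left]
  pc := pComplete_coprod fun i => hB.pc.shift (e i)
  bb := ⟨c, fun k hk z => pi_shift_zero h0 e (fun i => lt_of_lt_of_le hk (hc i)) z⟩

end ee

end Vale.Agent.P221.H543
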