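import Vale.Agent.P221.H543.KA
import Vale.Agent.P221.H543.Reg0
import Vale.Agent.P221.T.H520.End

/-!
# P221 (helper543): `Reg0` from Koszul exactness and finiteness, `Reg` from `Reg0` and regularity

* `finite_quot` : a quotient of a finitely generated `ℤ_p`-module by a subgroup containing the
  multiples of `p` is finite;
* `reg0_mk`, `reg_mk`.
-/

open MvPolynomial

set_option linter.unusedSectionVars false

namespace Vale.Agent.P221.H543

open Vale.Agent.P221.T Vale.Agent.P221.T.H746 Vale.Agent.P221.H460 Vale.Agent.P221.H377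
  Vale.Agent.P221.H626

variable {p : ℕ} [hp : Fact p.Prime] {n : ℕ}

/-- finite quotients -/
theorem finite_quot {G : Type} [AddCommGroup G] (h : FinZp p G) (N : AddSubgroup G)
    (hN : ∀ x : G, p • x ∈ N) : Finite (G ⧸ N) := by
  obtain ⟨hM, hF⟩ := h
  obtain ⟨s, hs⟩ := hF.fg_top
  -- every element is congruent to a combination of `s` with coefficients `< p`
  let f : (s → Fin p) → G ⧸ N := fun c => QuotientAddGroup.mk (∑ i : s, (c i : ℕ) • (i : G))
  refine Finite.of_surjective f ?_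
  intro y
  obtain ⟨x, rfl⟩ := QuotientAddGroup.mk_surjective y
  have hx : x ∈ Submodule.span ℤ_[p] (s : Set G) := by rw [hs]; trivial
  obtain ⟨a, -, hax⟩ := Submodule.mem_span_finset.1 hx
  have h1 : ∀ i : G, ∃ c : Fin p, ∃ d : ℤ_[p], a i = (c : ℕ) + (p : ℤ_[p]) * d := by
    intro i
    obtain ⟨c, hc, hc'⟩ := PadicInt.exists_mem_range (a i)
    rw [PadicInt.maximalIdeal_eq_span_p, Ideal.mem_span_singleton] at hc'
    obtain ⟨d, hd⟩ := hc'
    exact ⟨⟨c, hc⟩, d, by rw [← hd]; ring⟩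
  choose c d hcd using h1
  refine ⟨fun i => c i, ?_⟩
  rw [QuotientAddGroup.eq]
  have h2 : x = ∑ i : s, ((c i : ℕ) • (i : G) + p • (d i • (i : G))) := by
    rw [← hax, ← Finset.sum_coe_sort s (fun i => a i • i)]
    refine Finset.sum_congr rfl fun i _ => ?_
    rw [hcd i, add_smul, mul_smul]
    congr 1
    · exact Nat.cast_smul_eq_nsmul _ _ _
    · exact Nat.cast_smul_eq_nsmul _ _ _
  rw [h2, Finset.sum_add_distrib, neg_add_cancel_left]
  exact AddSubgroup.sum_mem _ fun i _ => hN _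

section

variable {ld : Lead p n} {S : Src p n} {O : OpAlg ld S} {X : OpX O} {Y : Sys S}

theorem mem_W_of_inB {r : ℕ} {t : ℤ} {z : AA Y} (h : InB (xo X Y) (grA Y) (sV p) r t z) :
    z ∈ W (D0 Y) (xx X Y) (fun _ => 1) r := by
  obtain ⟨y, -, rfl⟩ := h
  refine AddSubgroup.sum_mem _ fun a ha => ?_
  have h1 := range_le_W (D := D0 Y) (x := xx X Y) (E := fun _ => 1) (Finset.mem_range.1 ha) (y a)
  rw [pow_one] at h1
  exact h1

variable {M : Type} [AddCommGroup M] [Module (KK p) M] (Z : Ev O Y M)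

theorem mem_Nm_of_ka {r : ℕ} {t : ℤ} (h : KA X Y r 0 t) (hs : Function.Surjective (Y.ev t))
    (x : Y.Pi t) : x ∈ Nm Z X r t := by
  obtain ⟨a, rfl⟩ := hs x
  rw [← mem_W_iff]
  exact mem_W_of_inB (ex_zero_iff.1 h _ (of_mem_grA Y t a))

/-- `p π ⊆ N_m` -/
theorem p_mem_Nm (hs : ∀ k, Function.Surjective (Y.ev k)) {k : ℤ} (x : Y.Pi k) {m : ℕ}
    (hm : 1 ≤ m) : p • x ∈ Nm Z X m k := by
  obtain ⟨a, rfl⟩ := hs k x
  rw [← map_nsmul, ← mem_W_iff]
  have h0 : k + sV p 0 = k := by simp [sV]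
  have h1 : ofA Y k (p • a) = xx X Y 0 (ofA Y k a) := by
    rw [xx, opA_of Y h0]
    congr 1
    apply Z.inj
    refine LinearMap.ext fun z => ?_
    rw [c_act_gm, map_nsmul, LinearMap.smul_apply]
    have h2 : X.eta (vK p 0) * z = p • z := by
      change X.eta ((p : ℕ) : KK p) * z = _
      rw [map_natCast, nsmul_eq_mul]
    rw [h2, map_nsmul]
  rw [h1]
  have h3 := range_le_W (D := D0 Y) (x := xx X Y) (E := fun _ => 1) (show 0 < m by omega)
    (ofA Y k a)
  rw [pow_one] at h3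
  exact h3

/-- `Reg0` -/
theorem reg0_mk (hs : ∀ k, Function.Surjective (Y.ev k))
    (hbdd : ∃ m₀ : ℤ, ∀ k < m₀, ∀ x : Y.Pi k, x = 0)
    (hcpl : ∀ (k : ℤ) (z : ℕ → Y.Pi k), (∀ i, z i = p • z (i + 1)) → ∀ i, z i = 0)
    (hfin : ∀ k, FinZp p (Y.Pi k)) {t₀ : ℤ} (hK : ∀ t, t₀ ≤ t → KA X Y (n + 1) 0 t) :
    Reg0 Z X where
  surj := hs
  wd m _ k a ha := wd Z X hs m k a ha
  bdd := hbdd
  fin k := finite_quot (hfin k) _ fun x => p_mem_Nm Z hs x (by omega)
  fin' := ⟨t₀, fun k hk x => mem_Nm_of_ka Z (hK k hk.le) (hs k) x⟩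
  cpl := hcpl

/-- the regularity of `v_m` modulo `N_m`, `m < r` -/
def Rgm (X : OpX O) (Y : Sys S) (r : ℕ) : Prop :=
  ∀ m < r, Rg (xx X Y m) (W (D0 Y) (xx X Y) (fun _ => 1) m)

/-- `Reg` -/
theorem reg_mk (h : Reg0 Z X) (hr : Rgm X Y (n + 1)) : Reg Z X where
  surj := h.surj
  wd := h.wd
  inj m hm k a x hx hxa := by
    rw [← mem_W_iff Z X]
    refine hr m (by omega) _ ?_
    rw [xx, opA_of Y (sub_add_cancel k (sV p m)), mem_W_iff Z X]
    have h1 : Y.ev k (Y.act (sub_add_cancel k (sV p m)) a (gm X m)) = x := by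
      apply Z.e_inj
      rw [Z.ev, c_act_gm, _root_.mul_one, hxa]
    rwa [h1]
  bdd := h.bdd
  fin := h.fin
  fin' := h.fin'
  cpl := h.cpl

end

section step

variable {S : Src p n} {Y₁ Y Y₂ : Sys S} {i : SysMap Y₁ Y 0} {f : SysMap Y Y₂ 0}
  (E : SSES i f) {ld : Lead p n} {O : OpAlg ld S} {X : OpX O}
  {M : Type} [AddCommGroup M] [Module (KK p) M] (Z : Ev O Y M)

include E Z in
/-- **regularity of the kernel** -/
theorem SSES.rgm (hs : ∀ k, Function.Surjective (Y.ev k)) (h : Rgm X Y (n + 1)) {r : ℕ}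
    (hr : r ≤ n) (h₂ : Rgm X Y₂ r) : Rgm X Y₁ (r + 1) := fun m hm =>
  (E.ses X).rg (xx_comm Z X) hr (fun m _ => good_one Z X hs m) (fun m hm => h m (by omega))
    h₂ m (by omega)

end step

end Vale.Agent.P221.H543
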