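import Vale.Agent.P221.H543.Poly
import Vale.Agent.P221.H543.Mk
import Vale.Agent.P221.H626.RegY
import Vale.Agent.P221.H903.R2
import Vale.Agent.P221.T.Src

/-!
# P221 (helper543): Koszul exactness for a form `B`

* `ka_of_coor` : Koszul exactness from the functionals;
* `isReg_B` : `v_0, …, v_n` is a regular sequence on `π_* B`;
* `ka_B`, `ka_B_zero`, `rgm_B`.
-/

open MvPolynomial

set_option linter.unusedSectionVars false

namespace Vale.Agent.P221.H543

open Vale.Agent.P221.T Vale.Agent.P221.T.H746 Vale.Agent.P221.H460 Vale.Agent.P221.H377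
  Vale.Agent.P221.H626

section alg

variable {p : ℕ} [hp : Fact p.Prime] {n : ℕ} {ld : Lead p n} {S : Src p n} {O : OpAlg ld S}
  (X : OpX O) {M : Type} [AddCommGroup M] [Module (KK p) M] {Mg : ℤ → AddSubgroup M} {Y : Sys S}
  (co : Coor O Y M Mg)

/-- the functionals of an element of `⨁ A_k` -/
noncomputable def cA : AA Y →+ (GG p →ₗ[KK p] M) := DirectSum.toAddMonoid co.c

theorem cA_of (k : ℤ) (a : Y.A k) : cA co (ofA Y k a) = co.c k a := DirectSum.toAddMonoid_of _ _ _

theorem cA_xo (a : ℕ) (α : AA Y) : cA co (xo X Y a α) = xop X a (cA co α) := by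
  refine ind Y (Q := fun α => cA co (xo X Y a α) = xop X a (cA co α)) ?_ ?_ ?_ α
  · simp only [map_zero]
  · intro k b
    have h1 : xo X Y a (ofA Y k b) = ofA Y (k + sV p a) (Y.act rfl b (gm X a)) := opA_of Y rfl _ _
    rw [h1, cA_of, cA_of, xop_c X co]
  · intro α β h h'
    simp only [map_add, h, h']

include co in
/-- **Koszul exactness from the functionals** -/
theorem ka_of_coor {r : ℕ} {s t : ℤ} (h : Ex (xop X (M := M)) (fgr Mg) (sV p) r s t) :
    KA X Y r s t := by
  have hsm := fun {k m : ℤ} {f : KK p} {y : M} => co.smul_mem (k := k) (m := m) (f := f) (y := y)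
  have E : SE (cA co) (0 : (GG p →ₗ[KK p] M) →+ PUnit.{1}) (grA Y) (fgr Mg) (fun _ => ⊥)
      (t - Wd (sV p) r) :=
    { mem_f := fun k z hz => by
        obtain ⟨a, rfl⟩ := exists_of_mem_grA hz
        rw [cA_of]
        exact (range_c co _ _).1 ⟨a, rfl⟩
      mem_g := fun _ _ _ => AddSubgroup.zero_mem _
      comp := fun _ _ _ _ => rfl
      inj := fun k _ z hz h => by
        obtain ⟨a, rfl⟩ := exists_of_mem_grA hz
        rw [cA_of] at h
        rw [co.inj k (h.trans (map_zero _).symm), map_zero]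
      ex := fun k _ z hz _ => by
        obtain ⟨a, rfl⟩ := (range_c co _ _).2 hz
        exact ⟨ofA Y k a, of_mem_grA _ _ _, cA_of co k a⟩
      sur := fun _ _ _ _ => ⟨0, AddSubgroup.zero_mem _, rfl⟩ }
  exact E.ex_left (x'' := fun _ => 0) (fun a => sV_nonneg p a) (fun a k z hz => xo_mem a k z hz)
    (fun a k z hz => xop_mem X Mg hsm hz a) (fun a z => cA_xo X co a z) (fun a z => rfl)
    (fun a b z => xop_comm X a b z) (by rw [sub_add_cancel]) h
    (ex_of_zero fun z _ => by
      have key : ∀ (r : ℕ) (z : KC PUnit.{1} r), z = 0 := by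
        intro r
        induction r with
        | zero => exact fun z => rfl
        | succ r ih => exact fun z => pr_ext (ih _) (ih _)
      exact key _ z)

/-- a module which is free over `ℤ_p[v_1, …, v_n]` on one generator of degree `0` -/
structure FreeOne (p : ℕ) [Fact p.Prime] (n : ℕ) {M : Type} [AddCommGroup M] [Module (KK p) M]
    (Mg : ℤ → AddSubgroup M) (q : M) : Prop where
  mem : q ∈ Mg 0
  ex : ∀ k, ∀ y ∈ Mg k, ∃ f : MvPolynomial (Fin n) ℤ_[p], HK p k (RN p n f) ∧ y = RN p n f • q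
  inj : ∀ (k : ℤ) (f g : MvPolynomial (Fin n) ℤ_[p]), HK p k (RN p n f) → HK p k (RN p n g) →
    RN p n f • q = RN p n g • q → f = g

variable {q : M}

theorem inB_of_In (hF : FreeOne p n Mg q)
    (hsm : ∀ {k m : ℤ} {f : KK p} {y : M}, HK p m f → y ∈ Mg k → f • y ∈ Mg (k + m))
    {m : ℕ} (hm : m ≤ n + 1) {D : ℤ} {f : MvPolynomial (Fin n) ℤ_[p]} (h : In m D f) :
    InB (vop p M) Mg (sV p) m D (RN p n f • q) := by
  obtain ⟨u, hu, rfl⟩ := h
  rw [map_sum, Finset.sum_smul]
  refine InB.sum _ _ fun a _ => ?_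
  rw [map_mul, RN_vq (by have := a.2; omega), mul_smul]
  refine InB.single (x := vop p M) a.2 ?_
  have h1 := hsm (hu a) hF.mem
  rwa [zero_add] at h1

theorem In_of_inB (hF : FreeOne p n Mg q) {m : ℕ} (hm : m ≤ n + 1) {D : ℤ}
    {f : MvPolynomial (Fin n) ℤ_[p]} (hf : HK p D (RN p n f))
    (h : InB (vop p M) Mg (sV p) m D (RN p n f • q)) : In m D f := by
  obtain ⟨y, hy, h⟩ := h
  have h1 : ∀ a : Fin m, ∃ u : MvPolynomial (Fin n) ℤ_[p], HK p (D - sV p a) (RN p n u) ∧
      y a = RN p n u • q := fun a => hF.ex _ _ (hy a a.2)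
  choose u hu hu' using h1
  refine ⟨u, hu, ?_⟩
  have h2 : ∀ a : Fin m, HK p D (RN p n (vq p n a * u a)) := fun a => by
    rw [map_mul, RN_vq (by have := a.2; omega)]
    exact HK_cast (by ring) ((H460.HK_vK (a : ℕ)).mul (hu a))
  refine hF.inj D _ _ hf ?_ ?_
  · rw [map_sum]
    exact HK.sum _ fun a _ => h2 a
  · rw [h, map_sum, Finset.sum_smul, Finset.sum_range]
    refine Finset.sum_congr rfl fun a _ => ?_
    rw [map_mul, RN_vq (by have := a.2; omega), mul_smul, ← hu', vop_apply]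

/-- **a regular sequence** -/
theorem isReg_of_free (hF : FreeOne p n Mg q)
    (hsm : ∀ {k m : ℤ} {f : KK p} {y : M}, HK p m f → y ∈ Mg k → f • y ∈ Mg (k + m)) :
    IsReg (vop p M) Mg (sV p) (n + 1) := by
  intro b hb k z hz h
  obtain ⟨f, hf, rfl⟩ := hF.ex k z hz
  have h1 : vop p M b (RN p n f • q) = RN p n (vq p n b * f) • q := by
    rw [vop_apply, map_mul, RN_vq (by omega), mul_smul]
  have h2 : HK p (k + sV p b) (RN p n (vq p n b * f)) := by
    rw [map_mul, RN_vq (by omega)]
    exact HK_cast (by ring) ((H460.HK_vK b).mul hf)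
  rw [h1] at h
  exact inB_of_In hF hsm (by omega) (In_of_mul (by omega) hf (In_of_inB hF (by omega) h2 h))

/-- positive degrees -/
theorem inB_of_pos (hF : FreeOne p n Mg q)
    (hsm : ∀ {k m : ℤ} {f : KK p} {y : M}, HK p m f → y ∈ Mg k → f • y ∈ Mg (k + m))
    {t : ℤ} (ht : 0 < t) {y : M} (hy : y ∈ Mg t) : InB (vop p M) Mg (sV p) (n + 1) t y := by
  obtain ⟨f, hf, rfl⟩ := hF.ex t y hy
  refine inB_of_In hF hsm le_rfl (In_of_const hf ?_)
  have h1 : coeff 0 f = 0 := by
    by_contra h1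
    have h2 := (HK_RN_iff p).1 hf h1
    rw [map_zero] at h2
    omega
  rw [h1]
  exact dvd_zero _

include co in
/-- Koszul exactness in positive homological degrees -/
theorem ka_of_free (hF : FreeOne p n Mg q) {s t : ℤ} (hs : 1 ≤ s) : KA X Y (n + 1) s t :=
  ka_of_coor X co (ex_xop X Mg co.smul_mem (isReg_of_free hF co.smul_mem) hs)

include co in
/-- Koszul exactness in homological degree `0` -/
theorem ka_zero_of_free (hF : FreeOne p n Mg q) {t : ℤ} (ht : 0 < t) : KA X Y (n + 1) 0 t :=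
  ka_of_coor X co (ex_xop_zero X Mg co.smul_mem (t₀ := 1)
    (fun t ht y hy => inB_of_pos hF co.smul_mem (by omega) hy) (by omega))

include co in
theorem ka_B (hF : FreeOne p n Mg q) {s t : ℤ} (ht : 0 < t) : KA X Y (n + 1) s t := by
  rcases lt_trichotomy s 0 with h | rfl | h
  · exact ex_neg h
  · exact ka_zero_of_free X co hF ht
  · exact ka_of_free X co hF (by omega)

include co in
theorem rgm_of_free (hF : FreeOne p n Mg q) : Rgm X Y (n + 1) := fun m hm =>
  rg_xx X co (isReg_of_free hF co.smul_mem) m hm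

end alg

end Vale.Agent.P221.H543
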