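import Vale.Agent.P221.H460.C0

/-!
# P221 (helper543): `p, v_1, …, v_n` is a regular sequence in `ℤ_p[v_1, …, v_n]`, graded version

* `In_iff` : `f ∈ (v_0, …, v_m)` iff the coefficients of the monomials in `v_{m+1}, …, v_n` are
  divisible by `p`;
* `In_of_mul` : if `v_b f ∈ (v_0, …, v_{b-1})` then `f ∈ (v_0, …, v_{b-1})`.
-/

open MvPolynomial

set_option linter.unusedSectionVars false

namespace Vale.Agent.P221.H543

open Vale.Agent.P221.T Vale.Agent.P221.T.H746 Vale.Agent.P221.H460

variable {p : ℕ} [hp : Fact p.Prime] {n : ℕ}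

theorem In_zero_poly (m : ℕ) (D : ℤ) : In (p := p) (n := n) m D 0 :=
  ⟨fun _ => 0, fun a => by rw [map_zero]; exact HK_zero _, by simp⟩

theorem In_sum {m : ℕ} {D : ℤ} {ι : Type*} (s : Finset ι) (f : ι → MvPolynomial (Fin n) ℤ_[p])
    (h : ∀ i ∈ s, In m D (f i)) : In m D (∑ i ∈ s, f i) := by
  classical
  induction s using Finset.induction_on with
  | empty => rw [Finset.sum_empty]; exact In_zero_poly m D
  | insert a s ha ih =>
    rw [Finset.sum_insert ha]
    exact (h a (Finset.mem_insert_self _ _)).add (ih fun i hi => h i (Finset.mem_insert_of_mem hi))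

/-- one summand -/
theorem In_single {m a : ℕ} (ha : a < m) {D : ℤ} {h : MvPolynomial (Fin n) ℤ_[p]}
    (hh : HK p (D - sV p a) (RN p n h)) : In m D (vq p n a * h) := by
  classical
  refine ⟨fun b => if (b : ℕ) = a then h else 0, fun b => ?_, ?_⟩
  · beta_reduce
    by_cases hb : (b : ℕ) = a
    · rw [if_pos hb, hb]
      exact hh
    · rw [if_neg hb, map_zero]
      exact HK_zero _
  · rw [Finset.sum_eq_single (⟨a, ha⟩ : Fin m)]
    · beta_reduce
      rw [if_pos rfl]
    · intro b _ hb
      beta_reduce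
      rw [if_neg fun h => hb (Fin.ext h), mul_zero]
    · exact fun h => absurd (Finset.mem_univ _) h

/-- the condition on the coefficients -/
def Cf (m : ℕ) (f : MvPolynomial (Fin n) ℤ_[p]) : Prop :=
  ∀ E : Fin n →₀ ℕ, (∀ j : Fin n, (j : ℕ) < m → E j = 0) → (p : ℤ_[p]) ∣ coeff E f

theorem cf_of_In {m : ℕ} {D : ℤ} {f : MvPolynomial (Fin n) ℤ_[p]} (h : In (m + 1) D f) :
    Cf m f := by
  classical
  obtain ⟨h, -, rfl⟩ := h
  intro E hE
  rw [coeff_sum]
  refine Finset.dvd_sum fun a _ => ?_
  obtain ⟨a, ha⟩ := a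
  cases a with
  | zero =>
    simp only [vq]
    rw [← map_natCast (C (σ := Fin n) (R := ℤ_[p])), coeff_C_mul]
    exact Dvd.intro _ rfl
  | succ a =>
    simp only [vq]
    by_cases han : a < n
    · rw [dif_pos han, coeff_X_mul', if_neg]
      · exact dvd_zero _
      · rw [Finsupp.mem_support_iff, not_not]
        exact hE ⟨a, han⟩ (by change a < m; omega)
    · rw [dif_neg han, zero_mul, coeff_zero]
      exact dvd_zero _

theorem In_of_cf {m : ℕ} {D : ℤ} {f : MvPolynomial (Fin n) ℤ_[p]} (hf : HK p D (RN p n f))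
    (h : Cf m f) : In (m + 1) D f := by
  classical
  rw [f.as_sum]
  refine In_sum _ _ fun E hE => ?_
  have hw : Finsupp.weight (fun i : Fin n => sV p (i + 1)) E = D :=
    (HK_RN_iff p).1 hf (mem_support_iff.1 hE)
  by_cases h0 : ∀ j : Fin n, (j : ℕ) < m → E j = 0
  · obtain ⟨c, hc⟩ := h E h0
    have h1 : monomial E (coeff E f) = vq p n 0 * monomial E c := by
      simp only [vq]
      rw [hc, ← map_natCast (C (σ := Fin n) (R := ℤ_[p])), C_mul_monomial]
    rw [h1]
    refine In_single (Nat.succ_pos m) ?_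
    have e0 : sV p 0 = 0 := by simp [sV]
    rw [e0, sub_zero, HK_RN_iff]
    exact isWeightedHomogeneous_monomial _ _ _ hw
  · push Not at h0
    obtain ⟨j, hj, hj'⟩ := h0
    have h2 : E = Finsupp.single j 1 + (E - Finsupp.single j 1) := by
      rw [add_tsub_cancel_of_le]
      rw [Finsupp.single_le_iff]
      omega
    have h1 : monomial E (coeff E f) =
        vq p n (j + 1) * monomial (E - Finsupp.single j 1) (coeff E f) := by
      simp only [vq]
      rw [dif_pos j.2, X, monomial_mul, one_mul]
      exact congrArg (fun E' => monomial E' (coeff E f)) h2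
    rw [h1]
    refine In_single (by omega) ?_
    rw [HK_RN_iff]
    refine isWeightedHomogeneous_monomial _ _ _ ?_
    have h3 : Finsupp.weight (fun i : Fin n => sV p (i + 1)) E =
        Finsupp.weight (fun i : Fin n => sV p (i + 1)) (Finsupp.single j 1) +
          Finsupp.weight (fun i : Fin n => sV p (i + 1)) (E - Finsupp.single j 1) := by
      rw [← map_add, ← h2]
    rw [Finsupp.weight_single, one_smul, hw] at h3
    rw [h3]
    ring

/-- **regularity** -/
theorem In_of_mul {b : ℕ} (hb : b ≤ n) {D D' : ℤ} {f : MvPolynomial (Fin n) ℤ_[p]}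
    (hf : HK p D (RN p n f)) (h : In b D' (vq p n b * f)) : In b D f := by
  classical
  cases b with
  | zero =>
    obtain ⟨u, -, hu⟩ := h
    rw [Fin.sum_univ_zero] at hu
    have h1 : f = 0 := by
      rcases mul_eq_zero.1 hu with h2 | h2
      · exact absurd h2 (Nat.cast_ne_zero.2 hp.out.ne_zero)
      · exact h2
    rw [h1]
    exact In_zero_poly _ _
  | succ m =>
    refine In_of_cf hf fun E hE => ?_
    have h1 := cf_of_In h (E + Finsupp.single ⟨m, by omega⟩ 1) fun j hj => by
      rw [Finsupp.add_apply, hE j hj, zero_add, Finsupp.single_apply, if_neg]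
      intro h2
      have h3 := congrArg Fin.val h2
      change m = (j : ℕ) at h3
      omega
    have h2 : vq p n (m + 1) = X (⟨m, by omega⟩ : Fin n) := by
      simp only [vq]
      rw [dif_pos (by omega)]
    rw [h2, add_comm, coeff_X_mul] at h1
    exact h1

end Vale.Agent.P221.H543
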