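import Vale.Agent.P221.H377.Reg

/-!
# P221 (helper543): regularity of syzygies

`A` is an additive group with commuting endomorphisms `x m` and a subgroup `D` (the kernel of the
evaluation), `W D x 1 m = D + ∑_{b < m} range (x b)`.

* `SES` : short exact sequences of such data;
* `SES.map_W` : the image of `W` is `W`;
* `SES.comap_W` : if `x m` is regular modulo `W m` on the quotient for `m < r`, then `W m` of the
  subobject is the preimage of `W m`, `m ≤ r`;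
* `SES.rg` : `x m` is regular modulo `W m` on the subobject, `m ≤ r`.
-/

namespace Vale.Agent.P221.H543

open Vale.Agent.P221.H377

variable {A₁ A A₂ : Type*} [AddCommGroup A₁] [AddCommGroup A] [AddCommGroup A₂]

/-- a short exact sequence -/
structure SES (D₁ : AddSubgroup A₁) (x₁ : ℕ → AddMonoid.End A₁) (D : AddSubgroup A)
    (x : ℕ → AddMonoid.End A) (D₂ : AddSubgroup A₂) (x₂ : ℕ → AddMonoid.End A₂) where
  /-- the injection -/
  i : A₁ →+ A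
  /-- the surjection -/
  f : A →+ A₂
  i_x : ∀ m a, i (x₁ m a) = x m (i a)
  f_x : ∀ m a, f (x m a) = x₂ m (f a)
  f_i : ∀ a, f (i a) = 0
  ex : ∀ a, f a = 0 → ∃ b, i b = a
  f_surj : Function.Surjective f
  D₁_iff : ∀ a, a ∈ D₁ ↔ i a ∈ D
  D₂_of : ∀ a ∈ D, f a ∈ D₂
  D₂_lift : ∀ a, f a ∈ D₂ → ∃ b, a - i b ∈ D

namespace SES

variable {D₁ : AddSubgroup A₁} {x₁ : ℕ → AddMonoid.End A₁} {D : AddSubgroup A}
  {x : ℕ → AddMonoid.End A} {D₂ : AddSubgroup A₂} {x₂ : ℕ → AddMonoid.End A₂}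
  (s : SES D₁ x₁ D x D₂ x₂)

theorem mem_W_one {m : ℕ} {a : A} : a ∈ W D x (fun _ => 1) (m + 1) ↔
    ∃ w ∈ W D x (fun _ => 1) m, ∃ u, w + x m u = a := by
  rw [mem_W_succ]
  simp only [pow_one]

include s

theorem D₂_exists {c : A₂} (hc : c ∈ D₂) : ∃ a ∈ D, s.f a = c := by
  obtain ⟨a, rfl⟩ := s.f_surj c
  obtain ⟨b, hb⟩ := s.D₂_lift a hc
  exact ⟨_, hb, by rw [map_sub, s.f_i, sub_zero]⟩

theorem f_mem {m : ℕ} : ∀ {a : A}, a ∈ W D x (fun _ => 1) m → s.f a ∈ W D₂ x₂ (fun _ => 1) m := by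
  induction m with
  | zero => exact fun h => s.D₂_of _ h
  | succ m ih =>
    intro a ha
    obtain ⟨w, hw, u, rfl⟩ := mem_W_one.1 ha
    rw [map_add, s.f_x]
    exact mem_W_one.2 ⟨_, ih hw, _, rfl⟩

theorem exists_W {m : ℕ} : ∀ {c : A₂}, c ∈ W D₂ x₂ (fun _ => 1) m →
    ∃ a ∈ W D x (fun _ => 1) m, s.f a = c := by
  induction m with
  | zero => exact fun h => s.D₂_exists h
  | succ m ih =>
    intro c hc
    obtain ⟨w, hw, u, rfl⟩ := mem_W_one.1 hc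
    obtain ⟨a, ha, rfl⟩ := ih hw
    obtain ⟨b, rfl⟩ := s.f_surj u
    exact ⟨a + x m b, mem_W_one.2 ⟨a, ha, b, rfl⟩, by rw [map_add, s.f_x]⟩

theorem i_mem {m : ℕ} : ∀ {a : A₁}, a ∈ W D₁ x₁ (fun _ => 1) m →
    s.i a ∈ W D x (fun _ => 1) m := by
  induction m with
  | zero => exact fun h => (s.D₁_iff _).1 h
  | succ m ih =>
    intro a ha
    obtain ⟨w, hw, u, rfl⟩ := mem_W_one.1 ha
    rw [map_add, s.i_x]
    exact mem_W_one.2 ⟨_, ih hw, _, rfl⟩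

/-- **the snake lemma** -/
theorem comap_W (hx : ∀ b c, Commute (x b) (x c)) {n r : ℕ} (hr : r ≤ n + 1)
    (hwd : ∀ m ≤ n, ∀ d ∈ D, x m d ∈ W D x (fun _ => 1) m)
    (h₂ : ∀ m < r, Rg (x₂ m) (W D₂ x₂ (fun _ => 1) m)) {m : ℕ} (hm : m ≤ r) :
    ∀ a, s.i a ∈ W D x (fun _ => 1) m → a ∈ W D₁ x₁ (fun _ => 1) m := by
  induction m with
  | zero => exact fun a ha => (s.D₁_iff a).2 ha
  | succ m ih =>
    intro y hy
    obtain ⟨w, hw, a, hwa⟩ := mem_W_one.1 hy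
    have h1 : s.f w + x₂ m (s.f a) = 0 := by rw [← s.f_x, ← map_add, hwa, s.f_i]
    have h2 : s.f a ∈ W D₂ x₂ (fun _ => 1) m := by
      refine h₂ m (by omega) _ ?_
      have h3 : x₂ m (s.f a) = -s.f w := eq_neg_of_add_eq_zero_right h1
      rw [h3]
      exact neg_mem (s.f_mem hw)
    obtain ⟨w', hw', h3⟩ := s.exists_W h2
    obtain ⟨y', hy'⟩ := s.ex (a - w') (by rw [map_sub, h3, sub_self])
    have h4 : x m w' ∈ W D x (fun _ => 1) m :=
      map_W_self (fun b => hx m b) (hwd m (by omega)) w' hw'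
    have h5 : s.i (y - x₁ m y') = w + x m w' := by
      rw [map_sub, s.i_x, hy', map_sub, ← hwa]
      abel
    have h6 := ih (by omega) (y - x₁ m y') (by rw [h5]; exact add_mem hw h4)
    exact mem_W_one.2 ⟨_, h6, y', by abel⟩

/-- **regularity of the syzygy** -/
theorem rg (hx : ∀ b c, Commute (x b) (x c)) {n r : ℕ} (hr : r ≤ n)
    (hwd : ∀ m ≤ n, ∀ d ∈ D, x m d ∈ W D x (fun _ => 1) m)
    (h : ∀ m ≤ n, Rg (x m) (W D x (fun _ => 1) m))
    (h₂ : ∀ m < r, Rg (x₂ m) (W D₂ x₂ (fun _ => 1) m)) :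
    ∀ m ≤ r, Rg (x₁ m) (W D₁ x₁ (fun _ => 1) m) := by
  intro m hm a ha
  refine s.comap_W hx (by omega) hwd h₂ hm a (h m (by omega) _ ?_)
  rw [← s.i_x]
  exact s.i_mem ha

/-- if the quotient is regular and the sequence is exact modulo `W (n + 1)`, everything is in
`W (n + 1)` -/
theorem eq_top (hx : ∀ b c, Commute (x b) (x c)) {n : ℕ}
    (hwd : ∀ m ≤ n, ∀ d ∈ D, x m d ∈ W D x (fun _ => 1) m)
    (h₂ : ∀ m ≤ n, Rg (x₂ m) (W D₂ x₂ (fun _ => 1) m))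
    (hinj : ∀ a, s.f a ∈ W D₂ x₂ (fun _ => 1) (n + 1) → a ∈ W D x (fun _ => 1) (n + 1)) (a : A₁) :
    a ∈ W D₁ x₁ (fun _ => 1) (n + 1) := by
  refine s.comap_W hx (n := n) le_rfl hwd (fun m hm => h₂ m (by omega)) le_rfl a (hinj _ ?_)
  rw [s.f_i]
  exact zero_mem _

end SES

end Vale.Agent.P221.H543
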