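import Vale.Agent.P221.H543.Mk
import Vale.Agent.P221.H626.Op

/-!
# P221 (helper543): the short exact sequence of systems of a triangle of even objects

* `EE.homP` : `[P⟦k⟧, X] = 0`, `k` odd;
* `EE.fibre` : the fibre of a map of even objects which is onto on `π_*`;
* `sses_of_tri` : the exact sequence of systems.
-/

open CategoryTheory MonoidalCategory MonObj Limits Pretriangulated

set_option linter.unusedSectionVars false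

universe u

noncomputable section

namespace Vale.Agent.P221.H543

open Vale.Agent.P251 Vale.Agent.P251.S Vale.Agent.P251.T Vale.Agent.P251.M Vale.Agent.P251.F
  Vale.Agent.P251.I EvenSpheres Vale.Agent.P257.H80 Vale.Agent.P257.H762 Vale.Agent.P221.H246
  Vale.Agent.P221.Loc Vale.Agent.P221.E Vale.Agent.P221.E.H817
open Vale.Agent.P221.H395 (PComplete)
open Vale.Agent.P221.T (fm fm_comp shift_fm fm_assoc gc comp_gc gc_map gc_comp gc_surj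
  gc_zero_left BPS PiM zr KK GG HK dT SrcT Lead OpAlg SysMap Sys tri_exact
  tri_inj)
open Vale.Agent.P221.H460 (Ev OpX)
open Vale.Agent.P221.H377 (AA ofA xx D0 W Rg)
open Vale.Agent.P221.H626

variable {𝒯 : Type u} [Category.{0} 𝒯] [Preadditive 𝒯] [HasZeroObject 𝒯]
    [HasShift 𝒯 ℤ] [∀ n : ℤ, (shiftFunctor 𝒯 n).Additive] [Pretriangulated 𝒯] [IsTriangulated 𝒯]
    [MonoidalCategory 𝒯] [SymmetricCategory 𝒯] [TensorTriangulated 𝒯] [MonoidalClosed 𝒯]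
    [HasCoproducts.{0} 𝒯] [HasProducts.{0} 𝒯] [StableCat 𝒯]

theorem hom_shift_one {A Z : 𝒯} {k : ℤ} (h : ∀ w : A⟦k - 1⟧ ⟶ Z, w = 0)
    (t : A⟦k⟧ ⟶ Z⟦(1 : ℤ)⟧) : t = 0 := by
  obtain ⟨w, hw⟩ := gc_surj (show (1 : ℤ) + (k - 1) = k by ring) t
  rw [← hw, h w, gc_zero_left]

section tri

variable {X₁ G X : 𝒯} {i : X₁ ⟶ G} {f : G ⟶ X} {δ : X ⟶ X₁⟦(1 : ℤ)⟧}
  (hT : Triangle.mk i f δ ∈ distTriang 𝒯)

include hT

/-- maps to the target lift -/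
theorem exists_lift_tri {A : 𝒯} {k : ℤ} (h : ∀ w : A⟦k - 1⟧ ⟶ X₁, w = 0) (y : A⟦k⟧ ⟶ X) :
    ∃ z, z ≫ f = y := by
  obtain ⟨z, hz⟩ := dist_co₃ hT y (hom_shift_one h _)
  exact ⟨z, hz.symm⟩

/-- **the fibre** -/
theorem EE.fibre {p : ℕ} (hG : EE p G) (hX : EE p X)
    (hs : ∀ (k : ℤ) (y : (𝟙_ 𝒯)⟦k⟧ ⟶ X), ∃ z, z ≫ f = y) : EE p X₁ where
  ev k x := tri_inj hT x (fun y => hs _ y) (hG.ev k _)
  pc := PComplete.ext₁ _ hT hG.pc hX.pc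
  bb := by
    obtain ⟨m, hm⟩ := hG.bb
    exact ⟨m, fun k hk x => tri_inj hT x (fun y => hs _ y) (hm k hk _)⟩

theorem conn_fibre (hs : ∀ (k : ℤ) (y : (𝟙_ 𝒯)⟦k⟧ ⟶ X), ∃ z, z ≫ f = y) {c : ℤ}
    (hG : ∀ k < c, ∀ x : (𝟙_ 𝒯)⟦k⟧ ⟶ G, x = 0) : ∀ k < c, ∀ x : (𝟙_ 𝒯)⟦k⟧ ⟶ X₁, x = 0 :=
  fun k hk x => tri_inj hT x (fun y => hs _ y) (hG k hk _)

end tri

section sys

variable {D : MUData 𝒯} {F : SpaceFunctor 𝒯} {e : F.S.obj CCF ≅ (stdEven 𝒯).L}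
  {p : ℕ} [hp : Fact p.Prime] {R : 𝒯} [MonObj R] [IsCommMonObj R] {b₀ : D.R ⟶ R} [IsMonHom b₀]
  {P W₀ : 𝒯} (β : BPS p R P W₀)

include β in
/-- **`[P⟦k⟧, X] = 0`** -/
theorem EE.homP (hD : MUUniv e D) (hb : IsBPMon p b₀) {X : 𝒯} (hX : EE p X) {k : ℤ}
    (hk : ¬ (2 : ℤ) ∣ k) (f : P⟦k⟧ ⟶ X) : f = 0 :=
  β.ext_c hX.pc ((hX.homB hD hb hk _).trans (hX.homB hD hb hk _).symm)

variable {n : ℕ} {Sc : SrcT p n P} {X₁ G X : 𝒯} {i : X₁ ⟶ G} {f : G ⟶ X}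
  {δ : X ⟶ X₁⟦(1 : ℤ)⟧} (hT : Triangle.mk i f δ ∈ distTriang 𝒯)

include β hT in
/-- **the exact sequence of systems** -/
theorem sses_of_tri (hu : Sc.u = η[R] ≫ β.c) (hD : MUUniv e D) (hb : IsBPMon p b₀)
    (h₁ : EE p X₁) (hX : EE p X)
    (hs : ∀ (k : ℤ) (y : (𝟙_ 𝒯)⟦k⟧ ⟶ X), ∃ z, z ≫ f = y) :
    SSES (Sc.map0 i) (Sc.map0 f) := by
  have hsP : ∀ (k : ℤ) (y : P⟦k⟧ ⟶ X), ∃ z, z ≫ f = y := by
    intro k y
    by_cases hk : (2 : ℤ) ∣ k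
    · exact exists_lift_tri hT (fun w => EE.homP β hD hb h₁ (by omega) w) y
    · exact ⟨0, by rw [zero_comp, EE.homP β hD hb hX hk y]⟩
  refine ⟨fun k a => ?_, fun k a ha => ?_, fun k a ha => ?_, fun k y => ?_, fun k x hx => ?_,
    fun k x hx => ?_, fun k => ev_surj β hu hD hb h₁ k⟩
  · change P⟦k⟧ ⟶ X₁ at a
    refine (Sc.map0_f f k _).trans ?_
    rw [Sc.map0_f i k a, Category.assoc, dist_zero₁₂ hT, comp_zero]
    rfl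
  · change P⟦k⟧ ⟶ X₁ at a
    exact tri_inj hT a (fun y => hsP _ y) ((Sc.map0_f i k a).symm.trans ha)
  · change P⟦k⟧ ⟶ G at a
    obtain ⟨c, hc⟩ := (tri_exact hT a).1 ((Sc.map0_f f k a).symm.trans ha)
    exact ⟨c, (Sc.map0_f i k c).trans hc⟩
  · obtain ⟨z, hz⟩ := hsP k y
    exact ⟨z, (Sc.map0_f f k z).trans hz⟩
  · change (𝟙_ 𝒯)⟦k⟧ ⟶ X₁ at x
    exact tri_inj hT x (fun y => hs _ y) ((Sc.map0_g i k x).symm.trans hx)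
  · change (𝟙_ 𝒯)⟦k⟧ ⟶ G at x
    obtain ⟨c, hc⟩ := (tri_exact hT x).1 ((Sc.map0_g f k x).symm.trans hx)
    exact ⟨c, (Sc.map0_g i k c).trans hc⟩

end sys

end Vale.Agent.P221.H543
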